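import Crest.Agent.N334.Sw.Defs
import Crest.Agent.N334.G.Torus
import Crest.Agent.N334.End.Defs

/-!
# Row 334, S0519 (helper49): the concrete model and the block statements

`WorldStmt`, `InitStmt`, `SwStmt`, `GainStmt`, `LinkStmt` together give `Soft.QStmt h`.
-/

set_option autoImplicit false

open MeasureTheory Finset

noncomputable section

namespace Crest.Agent.N334.Mn

open G I Sw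

/-- the data of the model at one energy and one scale -/
structure Su where
  h : ℝ
  hh : 0 < h
  E : ℝ
  η : ℝ
  η0 : 0 < η
  η1 : η ≤ 1
  N : ℕ
  hN : 1 ≤ N
  a : ℕ
  b : ℕ
  r₁ : ℕ
  r₂ : ℕ
  dvd₁ : a ∣ b
  dvd₂ : 4 * b ∣ 2 ^ N
  le₁ : r₁ + 8 ≤ a
  le₂ : r₂ + 8 ≤ b
  B₁ : (Fin 2 → ℤ) → Site h
  B₂ : (Fin 2 → ℤ) → Site h
  a0 : ℝ
  b0 : ℝ
  b0_pos : 0 < b0
  b0_le : b0 ≤ 1
  wd₁ : (B₁ 0).wd = lawD a0 b0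
  wd₂ : (B₂ 0).wd = lawD a0 b0
  supp : |a0| + b0 ≤ h
  γ₁ : ℝ
  γ₂ : ℝ
  γ₁_pos : 0 < γ₁
  γ₁_le : γ₁ ≤ b0
  γ₂_pos : 0 < γ₂
  γ₂_le : γ₂ ≤ b0

namespace Su

variable (S : Su)

/-- the torus as a lattice of the gain theorem; `S.L.X` is `Tor S.g.M` by `rfl` -/
abbrev L : G.Lat := torus S.N S.hN

/-- the geometry -/
abbrev g : Geo where
  M := 2 ^ S.N
  a := S.a
  b := S.b
  r₁ := S.r₁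
  r₂ := S.r₂
  dvd₁ := S.dvd₁
  dvd₂ := S.dvd₂
  le₁ := S.le₁
  le₂ := S.le₂

/-- the labels -/
def lab : Lab S.L.X S.h := S.g.lab S.hh S.B₁ S.B₂

/-- active laws by class -/
def mu (ν₀ ν₁ ν₂ : Measure ℂ) : S.L.X → Measure ℂ := S.g.mu ν₀ ν₁ ν₂

/-- the closed uniform law -/
def unif : Measure ℂ := lift S.η (dens (ud S.h))

/-- the smooth port law at strength `γ` -/
def port (γ : ℝ) : Measure ℂ := lift (S.η + γ) (law S.a0 S.b0)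

/-- ensemble average -/
def I (μ : S.L.X → Measure ℂ) (F : S.L.Mat → ℝ) : ℝ := Iw S.lab S.E S.η μ F

/-- initial state: everything open -/
def ini (F : S.L.Mat → ℝ) : ℝ := S.I (S.mu (lawC S.h S.η 0) (S.port S.γ₁) (S.port S.γ₂)) F

/-- state after the switch: only class 2 is open -/
def mid (F : S.L.Mat → ℝ) : ℝ := S.I (S.mu S.unif (S.port 0) (S.port S.γ₂)) F

/-- number of sites -/
def vol : ℝ := Fintype.card S.L.X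

/-- range of the error kernel -/
def D : ℝ := 42 * S.b

/-- admissible active law -/
structure Adm (ν : Measure ℂ) : Prop where
  prob : IsProbabilityMeasure ν
  dens : ν.map Complex.re ≤ ENNReal.ofReal (S.h⁻¹ + S.b0⁻¹) • (volume : Measure ℝ)
  supp : ∀ᵐ t ∂ν, |t.re| ≤ S.h ∧ ga S.η t ≤ S.h + 1

/-- bias principle for the centres `y` with `ctr y`, strengths `≤ γm` -/
def BP (ctr : S.L.X → Prop) (γm κ ε : ℝ) : Prop :=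
  ∀ μ : S.L.X → Measure ℂ, (∀ x, S.Adm (μ x)) → ∀ W : S.L.Mat → ℝ, Temp S.E S.η W κ →
    ∀ y, ctr y → ∀ γ, 0 ≤ γ → γ ≤ γm →
      BPat S.lab S.E S.η μ W y S.a0 S.b0 γ ε ε (kx S.L S.D y)

/-- lossy comparison of the sites `o` with `src o` against the centre `tg o`, open at `γm`;
`π` bounds the probability that `o` is open -/
def LC (src : S.L.X → Prop) (tg : S.L.X → S.L.X) (γm κ ℓ : ℝ) : Prop :=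
  ∀ μ : S.L.X → Measure ℂ, (∀ x, S.Adm (μ x)) → ∀ W : S.L.Mat → ℝ, Temp S.E S.η W κ →
    ∀ o, src o → μ (tg o) = S.port γm → ∀ π : ℝ, 0 ≤ π →
      μ o {t | ga S.η t ≠ 0} ≤ ENNReal.ofReal π →
      LCat S.lab S.E S.η μ W o (tg o) (π * Real.exp ℓ) (kx S.L S.D o)

/-- what the transfer engine gives -/
structure World (κ ε₁ ε₂ ℓ₁ ℓ₂ : ℝ) : Prop where
  bp₁ : S.BP S.g.ctr₁ S.γ₁ κ ε₁
  bp₂ : S.BP S.g.ctr₂ S.γ₂ κ ε₂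
  lc₁ : S.LC S.g.plain S.g.c₁ S.γ₁ κ ℓ₁
  lc₂ : S.LC S.g.ctr₁ S.g.c₂ S.γ₂ κ ℓ₂
  dens : ∀ x l a, (S.lab.site x).den l a ≤ Real.exp ℓ₂

end Su

/-- mean energy of the uniform product ensemble, all active ports closed -/
def Q0 (N : ℕ) (hN : 1 ≤ N) (h E η : ℝ) : ℝ :=
  ∫ w, En (torus N hN).r2 (Kw (torus N hN) E η w) ∂Measure.pi fun _ => lift η (dens (ud h))

/-- blocks, environments, `T.Block.bp`, `T.Env.lc` (helper86, helper14) -/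
def WorldStmt : Prop :=
  ∀ h E₀ : ℝ, 0 < h → |E₀| < 4 + h → ∃ δ C : ℝ, 0 < δ ∧ 1 ≤ C ∧
    ∀ (E η κ : ℝ) (N a b r₁ r₂ : ℕ), |E - E₀| ≤ δ → 0 < η → 0 ≤ κ → 1 ≤ N →
      a ∣ b → 4 * b ∣ 2 ^ N → r₁ + 8 ≤ a → a ≤ 2 * (r₁ + 8) → r₂ + 8 ≤ b → b ≤ 2 * (r₂ + 8) →
      C ≤ r₁ → C * Real.log r₂ ^ 3 ≤ r₁ → r₁ ^ 2 ≤ r₂ → η ≤ Real.exp (-(C * r₂)) →
      κ * (b : ℝ) ^ 2 ≤ 1 →
      ∃ S : Su, S.h = h ∧ S.E = E ∧ S.η = η ∧ S.N = N ∧ S.a = a ∧ S.b = b ∧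
        S.World κ (Real.exp (-(r₁ / C))) (Real.exp (-(r₂ / C))) (C * (r₁ : ℝ) ^ 3)
          (C * (r₂ : ℝ) ^ 3)

/-- Combes-Thomas along the corridors (helper21) -/
def InitStmt : Prop :=
  ∀ h : ℝ, 0 < h → ∃ C : ℝ, 1 ≤ C ∧ ∀ S : Su, S.h = h →
    S.ini (En S.L.r2) ≤ C * (S.b : ℝ) ^ 4 * S.vol ∧
    (∀ m, m < S.N → S.ini (En (S.L.s4 m)) ≤ C * (S.b : ℝ) ^ 6 / 16 ^ m * S.vol) ∧
    ∀ (c : S.L.X) (R2 lam : ℝ) (p : ℕ), 1 ≤ R2 → 0 ≤ lam →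
      S.ini (fun K => (lam + En (S.L.wF c R2) K) ^ p) ≤ (lam + C * (S.b : ℝ) ^ 4) ^ p

/-- phases 0 and 1 (helper45) -/
def SwStmt : Prop :=
  ∃ C : ℝ, 1 ≤ C ∧ ∀ (S : Su) (κ ε₁ ε₂ ℓ₁ ℓ₂ : ℝ), S.World κ ε₁ ε₂ ℓ₁ ℓ₂ → 0 ≤ κ → 0 ≤ ε₁ →
    (S.a : ℝ) ≤ ℓ₁ → (S.b : ℝ) ≤ ℓ₂ → ε₁ * ℓ₂ ≤ 1 →
    S.mid (En S.L.r2) ≤
      Real.exp (C * ℓ₁) * (S.ini (En S.L.r2) + (S.b : ℝ) ^ 4 * S.vol) ∧
    (∀ m, m < S.N → S.mid (En (S.L.s4 m)) ≤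
      Real.exp (C * (ℓ₁ + ℓ₂)) * (S.ini (En (S.L.s4 m)) + (S.b : ℝ) ^ 6 / 16 ^ m * S.vol)) ∧
    ∀ (c : S.L.X) (R2 lam : ℝ) (p : ℕ), 1 ≤ R2 → 1 ≤ p → C * p ≤ κ * lam → C * p ≤ lam →
      C * (S.b : ℝ) ^ 4 ≤ lam → p * ℓ₂ ≤ lam →
      S.mid (fun K => (lam + En (S.L.wF c R2) K) ^ p) ≤
        Real.exp (C * p * ℓ₁) * S.ini fun K => (lam + En (S.L.wF c R2) K) ^ p

/-- phase 2: `G.gain` in the concrete model (helper49) -/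
def GainStmt : Prop :=
  ∃ (τ0 C : ℝ) (p : ℕ), 1 ≤ C ∧ 1 ≤ p ∧ ∀ τ : ℝ, τ0 ≤ τ →
    ∀ (S : Su) (κ ε₁ ε₂ ℓ₁ ℓ₂ lam : ℝ), S.World κ ε₁ ε₂ ℓ₁ ℓ₂ → 0 ≤ κ → 0 ≤ ε₂ →
    Real.exp (-τ ^ 32) ≤ S.η → S.η ≤ Real.exp (-τ ^ 32 / 2) → τ ^ 32 ≤ S.N → ℓ₂ ≤ τ ^ 16 →
    lam ≤ τ → C * p ≤ κ * lam → C * (S.b : ℝ) ^ 4 ≤ lam →
    ε₂ * (C * (S.b : ℝ) ^ 4) ≤ 1 / τ ^ 288 →
    S.mid (En S.L.r2) ≤ τ ^ 16 * S.vol →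
    (∀ m, m < S.N → S.mid (En (S.L.s4 m)) ≤ Real.exp (τ ^ 16) / 16 ^ m * S.vol) →
    (∀ (c : S.L.X) (R2 : ℝ), 1 ≤ R2 →
      S.mid (fun K => (lam + En (S.L.wF c R2) K) ^ p) ≤ τ ^ p) →
    Q0 S.N S.hN S.h S.E S.η ≤ C / τ ^ 160 * S.vol

/-- from the torus energy to the moment of the end game (helper21) -/
def LinkStmt : Prop :=
  ∃ C : ℝ, 1 ≤ C ∧ ∀ n : ℕ, ∃ N₀ : ℕ, ∀ (N : ℕ) (hN : 1 ≤ N), N₀ ≤ N → ∃ F : Soft.FinVol n,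
    ∀ h E η X : ℝ, 0 < h → 0 < η → Q0 N hN h E η ≤ X * Fintype.card (torus N hN).X →
      ∫⁻ ω, ENNReal.ofReal (η ^ 2 * F.mom h ⟨E, η⟩ ω)
        ∂Crest.MathPhysics.Anderson.siteMeasure (Fin 2 → ℤ) ≤ ENNReal.ofReal (C * X)

/-- the parameter ledger (helper24): `r₁ ~ (log τ)^(1/4)`, `r₂ ~ 300 C log τ`, `a`, `b` powers of
two; it is used with `κ = b⁻²`, `lam = √τ` -/
def LedgerStmt : Prop :=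
  ∀ C : ℝ, 1 ≤ C → ∀ᶠ τ : ℝ in Filter.atTop, ∃ a b j r₁ r₂ : ℕ, a ∣ b ∧ b = 2 ^ j ∧
    r₁ + 8 ≤ a ∧ a ≤ 2 * (r₁ + 8) ∧ r₂ + 8 ≤ b ∧ b ≤ 2 * (r₂ + 8) ∧
    C ≤ r₁ ∧ C * Real.log r₂ ^ 3 ≤ r₁ ∧ r₁ ^ 2 ≤ r₂ ∧ a ≤ r₁ ^ 3 ∧ b ≤ r₂ ^ 3 ∧
    Real.exp (-(r₁ / C)) * (C * (r₂ : ℝ) ^ 3) ≤ 1 ∧
    Real.exp (-(r₂ / C)) * (C * (b : ℝ) ^ 4) ≤ 1 / τ ^ 288 ∧
    C * (b : ℝ) ^ 6 ≤ Real.sqrt τ ∧
    2 * Real.exp (C * (r₁ : ℝ) ^ 3) ≤ Real.sqrt τ ∧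
    1 ≤ τ

end Crest.Agent.N334.Mn
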