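import Crest.Agent.N334.Main.Defs
import Crest.Agent.N334.I.C0
import Crest.Agent.N334.I.Geo
import Crest.Agent.N334.G.Law
import Crest.Agent.N334.Sw.Exp

/-!
# Row 334, S0519 (helper20): admissible laws and the probability to be open
-/

set_option autoImplicit false

open MeasureTheory Finset

noncomputable section

namespace Crest.Agent.N334.Mn

open G I Sw

namespace Ad

theorem dens_le {f : ℝ → ℝ} {c : ℝ} (h : ∀ a, f a ≤ c) :
    dens f ≤ ENNReal.ofReal c • (volume : Measure ℝ) := by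
  have : dens (fun _ => c) = ENNReal.ofReal c • (volume : Measure ℝ) := withDensity_const _
  exact this ▸ dens_mono h

theorem meas_open (η : ℝ) : MeasurableSet {t | ga η t ≠ 0} :=
  (measurableSet_eq_fun (measurable_ga η) measurable_const).compl

theorem mix_apply (p : ℝ) (ν ν' : Measure ℂ) (s : Set ℂ) :
    mix p ν ν' s = ENNReal.ofReal (1 - p) * ν s + ENNReal.ofReal p * ν' s := rfl

theorem ofReal_add_one {p : ℝ} (h0 : 0 ≤ p) (h1 : p ≤ 1) :
    ENNReal.ofReal (1 - p) + ENNReal.ofReal p = 1 := by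
  rw [← ENNReal.ofReal_add (by linarith) h0, sub_add_cancel, ENNReal.ofReal_one]

theorem isProb_mix {p : ℝ} (h0 : 0 ≤ p) (h1 : p ≤ 1) (ν ν' : Measure ℂ) [IsProbabilityMeasure ν]
    [IsProbabilityMeasure ν'] : IsProbabilityMeasure (mix p ν ν') :=
  ⟨by rw [mix_apply, measure_univ, measure_univ, mul_one, mul_one, ofReal_add_one h0 h1]⟩

theorem mix_le {p : ℝ} (h0 : 0 ≤ p) (h1 : p ≤ 1) {ν ν' : Measure ℂ} {s : Set ℂ} {r : ENNReal}
    (h : ν s ≤ r) (h' : ν' s ≤ r) : mix p ν ν' s ≤ r := by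
  rw [mix_apply]
  calc _ ≤ ENNReal.ofReal (1 - p) * r + ENNReal.ofReal p * r := by gcongr
    _ = r := by rw [← add_mul, ofReal_add_one h0 h1, one_mul]

/-- a closed law is not open -/
theorem lift_open (η : ℝ) (ν : Measure ℝ) : lift η ν {t | ga η t ≠ 0} = 0 := by
  have : ∀ᵐ t ∂lift η ν, ga η t = 0 := (ae_lift_im η ν).mono fun t ht => by simp [ga, ht]
  exact this

theorem lawC_open {h : ℝ} (hh : 0 < h) (η : ℝ) (c : ℕ) :
    lawC h η c {t | ga η t ≠ 0} ≤ ENNReal.ofReal (2 / 2 ^ c) := by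
  rw [lawC, Measure.add_apply, cls, lift_open, add_zero]
  exact (measure_mono (Set.subset_univ _)).trans (opn_univ_le hh η c)

/-- phase 0 -/
theorem mixC_open {h : ℝ} (hh : 0 < h) (η : ℝ) (c : ℕ) {p : ℝ} (h0 : 0 ≤ p) (h1 : p ≤ 1) :
    mix p (lawC h η c) (lawC h η (c + 1)) {t | ga η t ≠ 0} ≤ ENNReal.ofReal (2 / 2 ^ c) :=
  mix_le h0 h1 (lawC_open hh η c) ((lawC_open hh η _).trans (ENNReal.ofReal_le_ofReal (by
    gcongr <;> norm_num)))

/-- phase 1 -/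
theorem mix_closed_open (η : ℝ) (p : ℝ) (ν : Measure ℂ) [IsProbabilityMeasure ν]
    (ν' : Measure ℝ) : mix p ν (lift η ν') {t | ga η t ≠ 0} ≤ ENNReal.ofReal (1 - p) := by
  rw [mix_apply, lift_open, mul_zero, add_zero]
  exact mul_le_of_le_one_right' prob_le_one

/-- the ensemble only sees the laws of the sites that can be active -/
theorem ens_congr {V : Type} [Fintype V] [DecidableEq V] {h : ℝ} (L : Lab V h) (η : ℝ)
    {μ μ' : V → Measure ℂ} (H : ∀ x, L.can x → μ x = μ' x) : L.ens η μ = L.ens η μ' := by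
  have : ∀ l, L.law η μ l = L.law η μ' l := fun l => funext fun x => by
    by_cases hx : L.act l x
    · rw [L.law_of_act η μ hx, L.law_of_act η μ' hx, H x hx.1]
    · rw [L.law_of_not_act η μ hx, L.law_of_not_act η μ' hx]
  simp only [Lab.ens, this]

end Ad

open Ad

namespace Su

variable (S : Su)

theorem b0_le_h : S.b0 ≤ S.h := by have := S.supp; have := abs_nonneg S.a0; linarith

theorem adm_lift {f : ℝ → ℝ} [IsProbabilityMeasure (dens f)] (hf : ∀ a, f a ≤ S.h⁻¹ + S.b0⁻¹)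
    (hs : ∀ᵐ a ∂dens f, |a| ≤ S.h) {γ : ℝ} (h0 : 0 ≤ γ) (h1 : γ ≤ S.h + 1) :
    S.Adm (lift (S.η + γ) (dens f)) where
  prob := inferInstance
  dens := by rw [map_re_lift]; exact dens_le hf
  supp := by
    refine ae_lift ((measurableSet_le (Complex.measurable_re.abs) measurable_const).inter
      (measurableSet_le (measurable_ga _) measurable_const)) (hs.mono fun a ha => ?_)
    rw [ga_pt _ _ h0]
    exact ⟨by simpa [pt] using ha, h1⟩

theorem ud_le' (a : ℝ) : ud S.h a ≤ S.h⁻¹ + S.b0⁻¹ := by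
  have h1 := ud_le S.h a S.hh
  have h2 := inv_pos.2 S.b0_pos
  have h3 := inv_pos.2 S.hh
  rw [one_div, mul_inv] at h1
  linarith

theorem adm_unif : S.Adm S.unif := by
  have := isProb_unif S.hh
  have h := S.adm_lift S.ud_le' (ae_dens (measurable_ud _) fun _ => abs_le_of_ud_pos) le_rfl
    (by have := S.hh; linarith)
  rwa [add_zero] at h

theorem adm_lawC (c : ℕ) : S.Adm (lawC S.h S.η c) where
  prob := isProb_lawC' S.hh _ c
  dens := by rw [map_re_lawC S.hh]; exact dens_le S.ud_le'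
  supp := by
    have hh := S.hh
    rw [lawC, ae_add_measure_iff]
    refine ⟨(ae_opn S.hh S.η c).mono fun t ht => ⟨ht.2.1, ?_⟩,
      (ae_cls S.hh S.η c).mono fun t ht => ⟨ht.2, ?_⟩⟩
    · have h1 : S.h / 2 ^ c ≤ S.h := div_le_self hh.le (one_le_pow₀ one_le_two)
      have h2 : 0 ≤ S.h / 2 ^ c := by positivity
      rw [ga, ht.1, abs_le]; constructor <;> linarith
    · rw [ga, ht.1, neg_add_cancel, abs_zero]; linarith

theorem adm_port {γ : ℝ} (h0 : 0 ≤ γ) (h1 : γ ≤ S.b0) : S.Adm (S.port γ) := by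
  have : IsProbabilityMeasure (dens (lawD S.a0 S.b0)) := law_prob S.a0 S.b0_pos
  refine S.adm_lift (f := lawD S.a0 S.b0) (fun a => ?_) ((law_ae S.a0 S.b0_pos).mono fun a ha => ?_)
    h0 (by have := S.b0_le_h; linarith)
  · have := lawD_le S.a0 S.b0_pos a
    have := inv_pos.2 S.hh
    rw [one_div] at *
    linarith
  · have := S.supp
    have := abs_add_le (a - S.a0) S.a0
    rw [sub_add_cancel] at this
    linarith

theorem adm_port₀ : S.Adm (S.port 0) := S.adm_port le_rfl S.b0_pos.le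
theorem adm_port₁ : S.Adm (S.port S.γ₁) := S.adm_port S.γ₁_pos.le S.γ₁_le
theorem adm_port₂ : S.Adm (S.port S.γ₂) := S.adm_port S.γ₂_pos.le S.γ₂_le

theorem port_zero : S.port 0 = lift S.η (law S.a0 S.b0) := by rw [port, add_zero]

variable {S}

theorem Adm.mix {ν ν' : Measure ℂ} (h : S.Adm ν) (h' : S.Adm ν') {p : ℝ} (h0 : 0 ≤ p)
    (h1 : p ≤ 1) : S.Adm (mix p ν ν') where
  prob := by have := h.prob; have := h'.prob; exact isProb_mix h0 h1 ν ν'
  dens := by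
    refine Measure.le_iff.2 fun s hs => ?_
    rw [Measure.map_apply Complex.measurable_re hs]
    exact mix_le h0 h1 (Measure.map_apply (μ := ν) Complex.measurable_re hs ▸ h.dens s)
      (Measure.map_apply (μ := ν') Complex.measurable_re hs ▸ h'.dens s)
  supp := by
    rw [Sw.mix, ae_add_measure_iff]
    exact ⟨Measure.ae_smul_measure h.supp _, Measure.ae_smul_measure h'.supp _⟩

theorem adm_mu {ν₀ ν₁ ν₂ : Measure ℂ} (h₀ : S.Adm ν₀) (h₁ : S.Adm ν₁) (h₂ : S.Adm ν₂)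
    (x : S.L.X) : S.Adm (S.mu ν₀ ν₁ ν₂ x) := by
  unfold Su.mu Geo.mu; split_ifs <;> assumption

theorem adm_update {μ : S.L.X → Measure ℂ} (h : ∀ x, S.Adm (μ x)) (y : S.L.X) {ν : Measure ℂ}
    (hν : S.Adm ν) (x : S.L.X) : S.Adm (Function.update μ y ν x) := by
  rcases eq_or_ne x y with rfl | hx
  · rwa [Function.update_self]
  · rw [Function.update_of_ne hx]; exact h x

theorem adm_rep {μ ν : S.L.X → Measure ℂ} (h : ∀ x, S.Adm (μ x)) (C : Finset S.L.X)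
    (hν : ∀ x ∈ C, S.Adm (ν x)) (x : S.L.X) : S.Adm (rep C μ ν x) := by
  unfold rep; split_ifs with hx
  exacts [hν x hx, h x]

theorem adm_st0 {μ : S.L.X → Measure ℂ} (h : ∀ x, S.Adm (μ x)) (C : Finset S.L.X) (c : ℕ) {p : ℝ}
    (h0 : 0 ≤ p) (h1 : p ≤ 1) (x : S.L.X) : S.Adm (st0 S.h S.η C μ c p x) := by
  unfold st0; split_ifs
  exacts [(S.adm_lawC c).mix (S.adm_lawC _) h0 h1, h x]

theorem adm_st1 {μ : S.L.X → Measure ℂ} (h : ∀ x, S.Adm (μ x)) (C : Finset S.L.X) {γ : ℝ}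
    (g0 : 0 ≤ γ) (g1 : γ ≤ S.b0) {p : ℝ} (h0 : 0 ≤ p) (h1 : p ≤ 1) (x : S.L.X) :
    S.Adm (st1 S.η C μ (fun _ => S.a0) (fun _ => S.b0) (fun _ => γ) p x) := by
  unfold st1; split_ifs
  exacts [(S.adm_port g0 g1).mix (S.port_zero ▸ S.adm_port₀) h0 h1, h x]

/-- `S.I` only sees plain sites and centres -/
theorem I_congr {μ μ' : S.L.X → Measure ℂ}
    (H : ∀ x, S.g.plain x ∨ S.g.ctr₁ x ∨ S.g.ctr₂ x → μ x = μ' x) (F : S.L.Mat → ℝ) :
    S.I μ F = S.I μ' F := by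
  rw [I, I, Iw, Iw, ens_congr S.lab S.η H]

theorem mu_plain (ν₀ ν₁ ν₂ : Measure ℂ) {x : S.L.X} (hx : S.g.plain x) : S.mu ν₀ ν₁ ν₂ x = ν₀ :=
  Geo.mu_plain _ _ _ hx

theorem mu_ctr₁ (ν₀ ν₁ ν₂ : Measure ℂ) {x : S.L.X} (hx : S.g.ctr₁ x) : S.mu ν₀ ν₁ ν₂ x = ν₁ :=
  Geo.mu_ctr₁ _ _ _ hx

theorem mu_ctr₂ (ν₀ ν₁ ν₂ : Measure ℂ) {x : S.L.X} (hx : S.g.ctr₂ x) : S.mu ν₀ ν₁ ν₂ x = ν₂ :=
  Geo.mu_ctr₂ _ _ _ hx

variable (S)

/-- chordal distance against graph distance -/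
theorem sqrt_rx_le (x y : S.L.X) : √(S.L.rx x y) ≤ 7 * (d1 (M := 2 ^ S.N) x y : ℝ) := by
  refine Real.sqrt_le_iff.2 ⟨by positivity, ?_⟩
  have h1 := dsq_le (M := 2 ^ S.N) x y
  have h2 : S.L.rx x y ≤ 40 * dsq (M := 2 ^ S.N) x y := by
    rw [Lat.rx, dsq, mul_sum, mul_sum]
    exact sum_le_sum fun i _ => (chord_two_sided S.N i x y).2
  nlinarith [sq_nonneg (d1 (M := 2 ^ S.N) x y : ℝ)]

theorem eight_le_a : (8 : ℝ) ≤ S.a := by exact_mod_cast S.g.eight_le_a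
theorem eight_le_b : (8 : ℝ) ≤ S.b := by exact_mod_cast S.g.eight_le_b
theorem a_le_b : (S.a : ℝ) ≤ S.b := by exact_mod_cast S.g.a_le_b
theorem vol_pos : 0 < S.vol := by
  have : Nonempty S.L.X := ⟨(0 : Fin 2 → ZMod (2 ^ S.N))⟩
  exact Nat.cast_pos.2 Fintype.card_pos

end Su

end Crest.Agent.N334.Mn
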