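import Crest.Agent.N334.Main.Adm
import Crest.Agent.N334.Sw.Iw
import Crest.Agent.N334.I.Geo

/-!
# Row 334, S0519 (helper49): the ensemble of the gain phase in the format of `G`
-/

set_option autoImplicit false

open MeasureTheory Finset

noncomputable section

namespace Crest.Agent.N334.Mn

open G I Sw

section stat

variable {L : G.Lat} (st : Stat L)

/-- the laws of the complex values in a static ensemble -/
def cl (γ : L.X → ℝ) (x : L.X) : Measure ℂ := lift (st.η + γ x) (st.mu x)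

instance (γ : L.X → ℝ) (x : L.X) : IsProbabilityMeasure (cl st γ x) := by
  unfold cl; infer_instance

theorem integral_cl (γ : L.X → ℝ) {H : (L.X → ℂ) → ℝ} (hH : Measurable H) :
    ∫ w, H w ∂Measure.pi (cl st γ) = st.Ia fun a => H fun x => pt (st.η + γ x) (a x) := by
  have hm : MeasurePreserving (fun (a : L.X → ℝ) x => pt (st.η + γ x) (a x))
      (Measure.pi st.mu) (Measure.pi (cl st γ)) :=
    measurePreserving_pi st.mu (cl st γ) fun x => (measurable_pt _).measurePreserving _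
  rw [← hm.map_eq, integral_map hm.measurable.aemeasurable hH.aestronglyMeasurable]
  rfl

theorem Kw_pt {γ : L.X → ℝ} (hγ : ∀ x, 0 ≤ γ x) (E η : ℝ) (a : L.X → ℝ) :
    Kw L E η (fun x => pt (η + γ x) (a x)) = L.Km E η γ a := by
  simp only [Kw, ga_pt η _ (hγ _), pt_re]

theorem Ig_eq {γ : L.X → ℝ} (hγ : ∀ x, 0 ≤ γ x) {F : L.Mat → ℝ} (hF : Nice F) :
    st.Ig γ F = ∫ w, F (Kw L st.E st.η w) ∂Measure.pi (cl st γ) := by
  rw [integral_cl st γ (H := fun w => F (Kw L st.E st.η w)) (hF.meas.comp (measurable_Kw L _ _))]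
  simp only [Kw_pt hγ]
  rfl

theorem Kr_eq {y : L.X} (hb : 0 ≤ st.b y) {F : L.Mat → ℝ} (hF : Nice F) :
    st.Ia (fun a => F (st.Kr a y)) = ∫ w, F (Kw L st.E st.η w) ∂Measure.pi
      (Function.update (cl st st.γ) y (Measure.dirac (pt (st.η + st.b y) (st.a0 y)))) := by
  have := isProb_update (cl st st.γ) y (Measure.dirac (pt (st.η + st.b y) (st.a0 y)))
  rw [integral_pi_update _ _ _ ((bm_Kw st.E st.η_pos hF).integrable _)]
  simp only [integral_dirac]
  rw [integral_cl st st.γ (H := fun w => F (Kw L st.E st.η (Function.update w y _)))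
    (hF.meas.comp ((measurable_Kw L _ _).comp measurable_update_left))]
  congr 1
  funext a
  have h0 : ∀ x, 0 ≤ Function.update st.γ y (st.b y) x := fun x => by
    rcases eq_or_ne x y with rfl | hx
    · rwa [Function.update_self]
    · rw [Function.update_of_ne hx]; exact st.γ_nonneg x
  rw [Stat.Kr, Lat.Kref, ← Kw_pt h0]
  congr 2
  funext x
  rcases eq_or_ne x y with rfl | hx
  · simp only [Function.update_self]
  · simp only [Function.update_of_ne hx]

end stat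

namespace Su

variable (S : Su)

open Classical in
/-- active centres of class 2 -/
def Y (l : S.L.X → Bool) : Finset S.L.X := univ.filter fun x => S.g.ctr₂ x ∧ S.lab.act l x

open Classical in
/-- centres of class 2 -/
def C₂ : Finset S.L.X := univ.filter fun x => S.g.ctr₂ x

theorem mem_C₂ {x : S.L.X} : x ∈ S.C₂ ↔ S.g.ctr₂ x := by simp [C₂]

theorem mem_Y {l : S.L.X → Bool} {x : S.L.X} : x ∈ S.Y l ↔ S.g.ctr₂ x ∧ S.lab.act l x := by
  simp [Y]

theorem den_ctr₁ {l : S.L.X → Bool} {x : S.L.X} (hx : S.g.ctr₁ x) (ha : S.lab.act l x) :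
    dens ((S.lab.site x).den (l x)) = law S.a0 S.b0 := by
  have h0 : S.lab.act l x ↔ _ := Geo.act_ctr₁ (g := S.g) S.hh S.B₁ S.B₂ l hx
  have h1 : l x = true := h0.1 ha x (self_mem_ball (M := 2 ^ S.N) _ _)
  have h2 : S.lab.site x = S.B₁ 0 := Geo.site_ctr₁ S.hh S.B₁ S.B₂ hx
  rw [h1, h2, Site.den, if_pos rfl, S.wd₁]; rfl

theorem den_ctr₂ {l : S.L.X → Bool} {x : S.L.X} (hx : S.g.ctr₂ x) (ha : S.lab.act l x) :
    dens ((S.lab.site x).den (l x)) = law S.a0 S.b0 := by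
  have h0 : S.lab.act l x ↔ _ := Geo.act_ctr₂ (g := S.g) S.hh S.B₁ S.B₂ l hx
  have h1 : l x = true := h0.1 ha x (self_mem_ball (M := 2 ^ S.N) _ _)
  have h2 : S.lab.site x = S.B₂ 0 := Geo.site_ctr₂ S.hh S.B₁ S.B₂ hx
  rw [h1, h2, Site.den, if_pos rfl, S.wd₂]; rfl

theorem den_plain (l : S.L.X → Bool) {x : S.L.X} (hx : S.g.plain x) :
    (S.lab.site x).den (l x) = ud S.h := by
  have h2 : S.lab.site x = Site.triv S.hh :=
    Geo.site_other S.hh S.B₁ S.B₂ hx.not_blk₁ hx.not_blk₂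
  rw [h2, Site.triv_den]

/-- the static ensemble of a label field -/
def stat (l : S.L.X → Bool) : Stat S.L where
  E := S.E
  η := S.η
  η_pos := S.η0
  η_le := S.η1
  Y := S.Y l
  mu x := dens ((S.lab.site x).den (l x))
  prob x := (S.lab.site x).isProb_den S.hh _
  a0 _ := S.a0
  b _ := S.b0
  γ x := if x ∈ S.Y l then S.γ₂ else 0
  γ_nonneg x := by split_ifs; exacts [S.γ₂_pos.le, le_rfl]
  γ_le x := by split_ifs; exacts [S.γ₂_le.trans S.b0_le, zero_le_one]
  hY x hx := ⟨S.den_ctr₂ (S.mem_Y.1 hx).1 (S.mem_Y.1 hx).2, S.b0_pos, S.b0_le, by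
    rw [if_pos hx]; exact S.γ₂_le⟩

/-- the ensemble of the gain phase -/
def ens : Ens S.L where
  Ω := S.L.X → Bool
  pr := S.lab.P
  pr_nonneg := S.lab.P_nonneg
  pr_sum := S.lab.sum_P
  S := S.stat

/-- active laws when the centre `x` of class 2 has strength `γ₂ * f x` -/
def muf (f : S.L.X → ℝ) (x : S.L.X) : Measure ℂ :=
  S.mu S.unif (S.port 0) (S.port (S.γ₂ * f x)) x

variable {S}

theorem adm_muf {f : S.L.X → ℝ} (hf : ∀ x, 0 ≤ f x ∧ f x ≤ 1) (x : S.L.X) : S.Adm (S.muf f x) := by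
  unfold muf mu Geo.mu
  split_ifs
  · exact S.adm_port le_rfl S.b0_pos.le
  · exact S.adm_port (mul_nonneg S.γ₂_pos.le (hf x).1)
      ((mul_le_of_le_one_right S.γ₂_pos.le (hf x).2).trans S.γ₂_le)
  · exact S.adm_unif

theorem muf_ctr₂ (f : S.L.X → ℝ) {x : S.L.X} (hx : S.g.ctr₂ x) :
    S.muf f x = S.port (S.γ₂ * f x) := Geo.mu_ctr₂ _ _ _ hx

theorem law_muf (f : S.L.X → ℝ) (l : S.L.X → Bool) :
    S.lab.law S.η (S.muf f) l = cl (S.stat l) fun x => (S.stat l).γ x * f x := by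
  funext x
  change _ = lift (S.η + (if x ∈ S.Y l then S.γ₂ else 0) * f x) (dens ((S.lab.site x).den (l x)))
  by_cases ha : S.lab.act l x
  · rw [Lab.law_of_act _ _ _ ha]
    rcases Geo.act_cases S.hh S.B₁ S.B₂ ha with h | h | h
    · rw [if_neg fun h' => h.not_ctr₂ (S.mem_Y.1 h').1, zero_mul, add_zero, S.den_plain l h]
      exact Geo.mu_plain _ _ _ h
    · rw [if_neg fun h' => h.not_ctr₂ (S.mem_Y.1 h').1, zero_mul, S.den_ctr₁ h ha]
      exact Geo.mu_ctr₁ _ _ _ h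
    · rw [if_pos (S.mem_Y.2 ⟨h, ha⟩), S.den_ctr₂ h ha]
      exact muf_ctr₂ f h
  · rw [Lab.law_of_not_act _ _ _ ha, if_neg fun h' => ha (S.mem_Y.1 h').2, zero_mul, add_zero]

theorem I_eq {μ : S.L.X → Measure ℂ} (hμ : ∀ x, IsProbabilityMeasure (μ x)) {F : S.L.Mat → ℝ}
    (hF : Nice F) : S.I μ F =
      ∑ l, S.lab.P l * ∫ w, F (Kw S.L S.E S.η w) ∂Measure.pi (S.lab.law S.η μ l) := by
  have := S.lab.isProb_law S.hh S.η μ
  exact S.lab.integral_ens S.η μ fun l => (bm_Kw S.E S.η0 hF).integrable _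

theorem sum_Ig {f : S.L.X → ℝ} (hf : ∀ x, 0 ≤ f x ∧ f x ≤ 1) {F : S.L.Mat → ℝ} (hF : Nice F) :
    ∑ l, S.lab.P l * (S.stat l).Ig (fun x => (S.stat l).γ x * f x) F = S.I (S.muf f) F := by
  rw [I_eq (fun x => (adm_muf hf x).prob) hF]
  refine sum_congr rfl fun l _ => ?_
  rw [Ig_eq _ (fun x => mul_nonneg ((S.stat l).γ_nonneg x) (hf x).1) hF, law_muf]
  rfl

theorem final_eq : ∑ l, S.lab.P l * (S.stat l).Ig 0 (En S.L.r2) = Q0 S.N S.hN S.h S.E S.η := by
  have h1 := sum_Ig (S := S) (f := fun _ => 0) (fun _ => ⟨le_rfl, zero_le_one⟩) (nice_En S.L.r2)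
  simp only [mul_zero] at h1
  have h2 : S.lab.ens S.η (S.muf fun _ => 0) = Measure.pi fun _ => lift S.η (dens (ud S.h)) :=
    S.lab.ens_final S.hh S.η _ fun l x hx => by
      have := congrFun (law_muf (S := S) (fun _ => 0) l) x
      rw [Lab.law_of_act _ _ _ hx] at this
      rw [this, cl, mul_zero, add_zero]
      rfl
  rw [Q0, ← h2]
  exact h1

theorem fac_mem {n : ℕ} (j : Lv n) : 0 ≤ fac j ∧ fac j ≤ 1 := by
  cases j <;> simp [fac, inv_le_one_iff₀, one_le_pow₀]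

theorem sum_I0 {n : ℕ} (lam : S.L.X → Lv n) {F : S.L.Mat → ℝ} (hF : Nice F) :
    ∑ l, S.lab.P l * ((S.stat l).lev lam).I0 F = S.I (S.muf fun x => fac (lam x)) F :=
  sum_Ig (fun x => fac_mem (lam x)) hF

theorem sum_IB {n : ℕ} (lam : S.L.X → Lv n) {W : S.L.Mat → ℝ} (hW : Nice W)
    (hW0 : ∀ K, IsPort K → 0 ≤ W K) {w : S.L.P → S.L.P → ℝ} (hw : ∀ p q, 0 ≤ w p q) :
    ∑ l, S.lab.P l * ((S.stat l).lev lam).IB (S.Y l) W w ≤
      Bi S.lab S.E S.η (S.muf fun x => fac (lam x)) S.C₂ (fun _ => S.a0)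
        (fun _ => S.b0) (fun x => S.γ₂ * fac (lam x)) W w := by
  have hμ := fun x => (adm_muf (S := S) (fun x => fac_mem (lam x)) x).prob
  have hN : ∀ y : S.L.X, Nice fun K => W K * Gam w K (y, true) := fun y => hW.mul (nice_Gam w _)
  have e : ∀ y, Iw S.lab S.E S.η (Function.update (S.muf fun x => fac (lam x)) y
      (Measure.dirac (pt (S.η + S.b0) S.a0))) (fun K => W K * Gam w K (y, true)) = _ := fun y =>
    I_eq (isProb_update _ y _) (hN y)
  simp only [Bi, e, mul_sum]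
  rw [sum_comm]
  refine sum_le_sum fun l _ => ?_
  set st := (S.stat l).lev lam with hst
  have h1 : st.IB (S.Y l) W w =
      ∑ y ∈ S.Y l, st.γ y / S.b0 * st.Ia fun a => W (st.Kr a y) * Gam w (st.Kr a y) (y, true) := by
    rw [Stat.IB, st.Ia_sum (S.Y l) fun y hy => st.bm_Kr
      (F := fun K => W K * (st.γ y / st.b y * Gam w K (y, true)))
      (hW.mul ((Nice.const _).mul (nice_Gam w _))) hy]
    refine sum_congr rfl fun y _ => ?_
    rw [← st.Ia_mul]
    congr 1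
    funext a
    change _ = st.γ y / st.b y * _
    ring
  rw [h1, mul_sum]
  refine le_trans (le_of_eq (sum_congr rfl fun y hy => ?_)) (sum_le_sum_of_subset_of_nonneg
    (s := S.Y l) (fun y hy => S.mem_C₂.2 (S.mem_Y.1 hy).1) fun y _ _ => ?_)
  · rw [Kr_eq st S.b0_pos.le (hN y), Lab.law_update_of_act _ _ _ (S.mem_Y.1 hy).2, law_muf,
      show st.γ y = S.γ₂ * fac (lam y) from congrArg (· * fac (lam y)) (if_pos hy), mul_left_comm]
    rfl
  · exact mul_nonneg (div_nonneg (mul_nonneg S.γ₂_pos.le (fac_mem _).1) S.b0_pos.le)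
      (mul_nonneg (S.lab.P_nonneg l) (integral_nonneg fun w' =>
        mul_nonneg (hW0 _ (port_Kw _ _ S.η0 _)) (Gam_nonneg hw _ _)))

/-- averages over site-independent levels -/
theorem ExS_eq {n : ℕ} (q : Lv n → ℝ) (Q : Stat S.L → ℝ) :
    S.ens.ExS (fun _ _ => q) Q = ∑ lam : S.L.X → Lv n, (∏ x, q (lam x)) *
      ∑ l, S.lab.P l * Q ((S.stat l).lev lam) := by
  simp only [Ens.ExS, Ens.Ex, mul_sum]
  rw [sum_comm]
  exact sum_congr rfl fun lam _ => sum_congr rfl fun l _ => mul_left_comm _ _ _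

theorem ExS_init {n : ℕ} {F : S.L.Mat → ℝ} (hF : Nice F) :
    S.ens.ExS (fun _ _ (j : Lv n) => if j = some 0 then (1 : ℝ) else 0) (fun st => st.I0 F) =
      S.mid F := by
  rw [ExS_eq, sum_eq_single (fun _ => some 0)]
  · simp only [if_true, prod_const_one, one_mul]
    rw [sum_I0 _ hF]
    simp only [fac, Fin.val_zero, pow_zero]
    unfold muf
    simp only [mul_one]
    rfl
  · intro lam _ h
    obtain ⟨x, hx⟩ := Function.ne_iff.1 h
    rw [prod_eq_zero (mem_univ x) (if_neg hx), zero_mul]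
  · simp

end Su

end Crest.Agent.N334.Mn
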