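import Crest.Agent.N334.Main.Ens
import Crest.Agent.N334.Sw.Sum
import Crest.Agent.N334.Sw.LocT
import Crest.Agent.N334.G.Gain

/-!
# Row 334, S0519 (helper49): the gain theorem in the concrete model
-/

set_option autoImplicit false

open MeasureTheory Finset

noncomputable section

namespace Crest.Agent.N334.Mn

open G I Sw

namespace Su

variable {S : Su} {κ ε : ℝ} {n : ℕ}

theorem bpat_lev (H : S.BP S.g.ctr₂ S.γ₂ κ ε) (lam : S.L.X → Lv n) {W : S.L.Mat → ℝ}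
    (hW : Temp S.E S.η W κ) : ∀ y ∈ S.C₂, BPat S.lab S.E S.η (S.muf fun x => fac (lam x)) W y
      S.a0 S.b0 (S.γ₂ * fac (lam y)) ε ε (kx S.L S.D y) := fun y hy =>
  H _ (adm_muf fun x => fac_mem (lam x)) W hW y (S.mem_C₂.1 hy) _
    (mul_nonneg S.γ₂_pos.le (fac_mem _).1) (mul_le_of_le_one_right S.γ₂_pos.le (fac_mem _).2)

theorem update_muf (lam : S.L.X → Lv n) {y : S.L.X} (hy : y ∈ S.C₂) :
    Function.update (S.muf fun x => fac (lam x)) y
      (lift (S.η + S.γ₂ * fac (lam y)) (law S.a0 S.b0)) = S.muf fun x => fac (lam x) :=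
  Function.update_eq_self_iff.2 (muf_ctr₂ (fun x => fac (lam x)) (S.mem_C₂.1 hy)).symm

theorem ExS_le {q : Lv n → ℝ} (h0 : ∀ j, 0 ≤ q j) (h1 : ∑ j, q j = 1) {Q Q' : Stat S.L → ℝ}
    {r c : ℝ} (H : ∀ lam : S.L.X → Lv n, ∑ l, S.lab.P l * Q ((S.stat l).lev lam) ≤
      r * ∑ l, S.lab.P l * Q' ((S.stat l).lev lam) + c) :
    S.ens.ExS (fun _ _ => q) Q ≤ r * S.ens.ExS (fun _ _ => q) Q' + c := by
  have h2 : ∑ lam : S.L.X → Lv n, ∏ x, q (lam x) = 1 := by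
    have := prod_univ_sum (fun _ : S.L.X => (univ : Finset (Lv n))) fun _ j => q j
    rw [Fintype.piFinset_univ] at this
    rw [← this]
    exact prod_eq_one fun _ _ => h1
  rw [ExS_eq, ExS_eq, ← one_mul c, ← h2, mul_sum, sum_mul, ← sum_add_distrib]
  refine sum_le_sum fun lam _ => ?_
  rw [mul_left_comm, ← mul_add]
  exact mul_le_mul_of_nonneg_left (H lam) (prod_nonneg fun x _ => h0 _)

theorem bpq (H : S.BP S.g.ctr₂ S.γ₂ κ ε) (hκ : 0 ≤ κ) (hε : 0 ≤ ε) {q : Lv n → ℝ}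
    (h0 : ∀ j, 0 ≤ q j) (h1 : ∑ j, q j = 1) {ε' err : ℝ} (he : ε ≤ ε')
    (hA : ε * Ak (kx S.L S.D) S.L.r2 ≤ err * S.vol) : S.ens.BPq (fun _ _ => q) ε' err := by
  refine ExS_le h0 h1 fun lam => ?_
  have hμ := fun x => (adm_muf (S := S) (fun x => fac_mem (lam x)) x).prob
  have hw : ∀ p q, 0 ≤ S.L.r2 p q := S.L.rho2_nonneg _
  have h2 := Sw.bi_of_BP S.hh S.η0 hμ (Nice.const 1) (fun _ _ => zero_le_one) hw
    (a₀ := fun _ => S.a0) (b := fun _ => S.b0) (γ := fun x => S.γ₂ * fac (lam x))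
    (fun _ _ => S.b0_pos) hε (k := kx S.L S.D) (fun _ _ => (Real.exp_pos _).le)
    (bpat_lev H lam ⟨Nice.const 1, fun _ _ => zero_le_one, fun _ _ _ => by
      simpa using Real.one_le_exp hκ⟩)
  have h3 := Sw.Sm.sum_Gam_le (lab := S.lab) (E := S.E) S.hh S.η0 hμ (Nice.const 1)
    (fun _ _ => zero_le_one) hw S.C₂ id (n := 1) fun z => by
      have : (S.C₂.filter fun o => id o = z).card ≤ 1 :=
        card_le_one.2 fun a ha b hb => (mem_filter.1 ha).2.trans (mem_filter.1 hb).2.symm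
      exact_mod_cast this
  rw [sum_congr rfl fun y hy => by rw [update_muf lam hy], Iw_const _ _ S.hh, mul_one] at h2
  simp only [one_mul, id] at h2 h3
  have h4 := Sw.Sm.Iw_nonneg (lab := S.lab) (E := S.E) (μ := S.muf fun x => fac (lam x)) S.η0
    (F := En S.L.r2) fun K _ => En_nonneg hw K
  rw [sum_I0 lam (nice_En _)]
  refine (sum_IB lam (Nice.const 1) (fun _ _ => zero_le_one) hw).trans (h2.trans ?_)
  exact add_le_add (mul_le_mul he h3 (sum_nonneg fun y _ => Sw.Sm.Iw_nonneg S.η0 fun K _ =>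
    Gam_nonneg hw K _) (hε.trans he)) hA

theorem bpk (H : S.BP S.g.ctr₂ S.γ₂ κ ε) (hε : 0 ≤ ε) {q : Lv n → ℝ}
    (h0 : ∀ j, 0 ≤ q j) (h1 : ∑ j, q j = 1) {ε' lam : ℝ} {p : ℕ} (hp : 1 ≤ p) (hl : 0 < lam)
    (he : 2 * ε ≤ ε') (hA : ∀ c R2, 1 ≤ R2 → Ak (kx S.L S.D) (S.L.wF c R2) ≤ lam)
    (hT : ∀ c R2, 1 ≤ R2 →
      Temp S.E S.η (fun K : S.L.Mat => (lam + En (S.L.wF c R2) K) ^ (p - 1)) κ) :
    S.ens.BPk (fun _ _ => q) ε' lam p := fun c R2 hR => by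
  rw [← add_zero (ε' * _)]
  refine ExS_le h0 h1 fun lv => ?_
  have hμ := fun x => (adm_muf (S := S) (fun x => fac_mem (lv x)) x).prob
  have hw := wF_nonneg S.L c (zero_lt_one.trans_le hR)
  have h2 := Sw.bi_of_BP_psi S.hh S.η0 hμ hw hl hp
    (a₀ := fun _ => S.a0) (b := fun _ => S.b0) (γ := fun x => S.γ₂ * fac (lv x))
    (fun _ _ => S.b0_pos) hε hε zero_le_one (k := kx S.L S.D) (fun _ _ => (Real.exp_pos _).le)
    (fun y hy F _ _ => by rw [update_muf lv hy, one_mul]) (bpat_lev H lv (hT c R2 hR))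
  rw [sum_I0 lv (((Nice.const _).add (nice_En _)).pow p), add_zero]
  refine (sum_IB lv (hT c R2 hR).1 (hT c R2 hR).2.1 hw).trans (h2.trans ?_)
  refine mul_le_mul_of_nonneg_right ?_ (Sw.Sm.Iw_nonneg S.η0 fun K _ => by
    have := En_nonneg hw K; positivity)
  have := mul_le_mul_of_nonneg_left ((div_le_one hl).2 (hA c R2 hR)) hε
  rw [mul_div_assoc]
  linarith

end Su

theorem gainM : GainStmt := by
  obtain ⟨τ0, Cl, C, p, hp, H⟩ := gain
  obtain ⟨C1, h1, H1⟩ := ak_r2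
  obtain ⟨C2, h2, H2⟩ := ak_wF
  obtain ⟨C3, h3, H3⟩ := tempT
  set C' : ℝ := |Cl| + |C| + (C1 + C2) * 42 ^ 4 + 4 * C3 + 2 with hC'
  have a1 := abs_nonneg Cl
  have a2 := abs_nonneg C
  refine ⟨max τ0 1, C', p, by nlinarith, hp, fun τ hτ S κ ε₁ ε₂ ℓ₁ ℓ₂ lam hW hκ hε e1 e2 e3 e4 e5 e6
    e7 e8 i1 i2 i3 => ?_⟩
  have τ1 : 1 ≤ τ := (le_max_right _ _).trans hτ
  have hb := S.eight_le_b
  have hb4 : 1 ≤ (S.b : ℝ) ^ 4 := one_le_pow₀ (by linarith)
  have hv := S.vol_pos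
  have hD : 1 ≤ S.D := by unfold Su.D; linarith
  have hD4 : S.D ^ 4 = 42 ^ 4 * (S.b : ℝ) ^ 4 := by rw [Su.D, mul_pow]
  have hC0 : 2 ≤ C' := by nlinarith
  have hlam : C' ≤ lam := (le_mul_of_one_le_right (by linarith) hb4).trans e7
  have hp' : (1 : ℝ) ≤ p := by exact_mod_cast hp
  have he : 2 * ε₂ ≤ 1 / τ ^ 64 := by
    have : 1 / τ ^ 288 ≤ 1 / τ ^ 64 :=
      one_div_le_one_div_of_le (by positivity) (pow_le_pow_right₀ τ1 (by norm_num))
    have : ε₂ * 2 ≤ ε₂ * (C' * (S.b : ℝ) ^ 4) := by gcongr; nlinarith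
    linarith
  obtain ⟨fl, hfl⟩ := exists_flow (n := ⌈20 * τ ^ 32⌉₊) hlf
  obtain ⟨f0, hf⟩ := hfl (fun j => if j = some 0 then 1 else 0)
    (fun j => by split_ifs <;> norm_num) (by simp)
  rw [← Su.final_eq]
  refine (H τ ((le_max_left _ _).trans hτ) S.L S.ens _
    (fun t _ _ => fl (fun j => if j = some 0 then 1 else 0) t) S.η lam (fun _ => rfl) e1 e2 e3
    (Nat.le_ceil _) (fun l x hx => if_neg hx)
    (fun l x => Ad.dens_le fun a => (hW.dens x _ a).trans (Real.exp_le_exp.2 e4))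
    (fun _ _ => hf) (by nlinarith [le_abs_self Cl]) e5 (fun t ht _ => ⟨?_, ?_⟩) ?_ ?_ ?_).trans ?_
  · refine Su.bpq hW.bp₂ hκ hε (hf.nonneg t ht) (hf.sum t) (by linarith) ?_
    refine (mul_le_mul_of_nonneg_left (H1 S.L S.D hD) hε).trans ?_
    rw [← mul_assoc]
    refine mul_le_mul_of_nonneg_right (le_trans ?_ e8) hv.le
    rw [hD4, ← mul_assoc C1]
    gcongr
    nlinarith
  · refine Su.bpk hW.bp₂ hε (hf.nonneg t ht) (hf.sum t) hp (by linarith) he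
      (fun c R2 hR => (H2 S.L S.D hD c R2 hR).trans (le_trans ?_ e7)) fun c R2 hR => ?_
    · rw [hD4, ← mul_assoc]
      gcongr
      nlinarith
    · obtain ⟨F, hF, hF'⟩ := exists_stereo S.L c (zero_lt_one.trans_le hR)
      rw [← hF']
      refine H3 S.L S.E S.η S.η0 _ F 4 lam κ p hp (by linarith) (fun a b => ?_) (le_trans ?_ e6)
      · have : wt F a b ≤ ∑ j, (2 * F j a ^ 2 + 2 * F j b ^ 2) :=
          sum_le_sum fun j _ => by nlinarith [sq_nonneg (F j a + F j b)]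
        rw [sum_add_distrib, ← mul_sum, ← mul_sum, hF, hF] at this
        linarith
      · have : 4 * C3 ≤ C' := by nlinarith
        nlinarith
  · simp only [f0]
    rwa [Su.ExS_init (nice_En _)]
  · intro m hm
    simp only [f0]
    rw [Su.ExS_init (nice_En _)]
    exact i2 m hm
  · intro c R2 hR
    simp only [f0]
    rw [Su.ExS_init (((Nice.const _).add (nice_En _)).pow p)]
    exact i3 c R2 hR
  · refine mul_le_mul_of_nonneg_right (div_le_div_of_nonneg_right ?_ (by positivity)) hv.le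
    nlinarith [le_abs_self C]

end Crest.Agent.N334.Mn
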