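import Crest.Agent.N334.Main.Defs
import Crest.Agent.N334.I.Cor
import Crest.Agent.N334.I.C0
import Crest.Agent.N334.G.Det
import Crest.Agent.N334.Sw.Exp

/-!
# Row 334, S0519 (helper21): the initial state
-/

set_option autoImplicit false

open MeasureTheory Finset

noncomputable section

namespace Crest.Agent.N334.Mn

open G I Sw

theorem En_Km (L : G.Lat) (E : ℝ) {η : ℝ} (hη : 0 < η) {γ : L.X → ℝ} (hγ : ∀ x, 0 ≤ γ x)
    (a : L.X → ℝ) (W : L.X → L.X → ℝ) :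
    En (fun p q => W p.1 q.1) (L.Km E η γ a) =
      4 * ∑ y, ∑ x, W x y * ((η + γ y) * (η + γ x) * ‖L.Gr (L.wv E η γ a) x y‖ ^ 2) := by
  have hs := Det.str_nonneg L hη hγ
  have h1 : ∀ p : L.P, Gam (fun p q => W p.1 q.1) (L.Km E η γ a) p = L.str η γ p *
      ∑ y, (η + γ y) * (4 * (W p.1 y * ‖L.Gr (L.wv E η γ a) p.1 y‖ ^ 2)) := fun p => by
    rw [← Det.sum_str L η γ fun y => 4 * (W p.1 y * ‖L.Gr (L.wv E η γ a) p.1 y‖ ^ 2), mul_sum]
    refine sum_congr rfl fun q _ => ?_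
    simp only [cc, Lat.Km, norm_mul, mul_pow, Complex.norm_real, Real.norm_eq_abs, sq_abs,
      Complex.norm_I, Real.sq_sqrt (hs _), Complex.norm_ofNat]
    ring
  simp only [En, h1]
  rw [Det.sum_str L η γ fun x => ∑ y, (η + γ y) * (4 * (W x y * ‖L.Gr (L.wv E η γ a) x y‖ ^ 2)),
    sum_comm, mul_sum]
  refine sum_congr rfl fun x _ => ?_
  rw [mul_sum, mul_sum]
  exact sum_congr rfl fun y _ => by ring

theorem Gr_col (L : G.Lat) (E : ℝ) {η : ℝ} (hη : 0 < η) {γ : L.X → ℝ} (hγ : ∀ x, 0 ≤ γ x)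
    (a : L.X → ℝ) (y x : L.X) :
    ∑ z, (L.A x z : ℂ) * L.Gr (L.wv E η γ a) z y + L.wv E η γ a x * L.Gr (L.wv E η γ a) x y =
      if x = y then 1 else 0 := by
  have h := Matrix.mul_nonsing_inv _ (Det.green L E (γ := γ) a hη fun x => by linarith [hγ x]).1
  have h1 := congrFun (congrFun h x) y
  rw [Matrix.add_mul, Matrix.add_apply, Matrix.diagonal_mul, Matrix.mul_apply, Matrix.one_apply] at h1
  exact h1

theorem rx_le (N : ℕ) (hN : 1 ≤ N) (x y : Tor (2 ^ N)) :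
    (torus N hN).rx x y ≤ 40 * (d1 x y : ℝ) ^ 2 := by
  refine le_trans ?_ (mul_le_mul_of_nonneg_left (dsq_le x y) (by norm_num))
  change (4 : ℝ) ^ N * ∑ i, ‖tU N N i x - tU N N i y‖ ^ 2 ≤ _
  rw [dsq, mul_sum, mul_sum]
  exact sum_le_sum fun i _ => (chord_two_sided N i x y).2

theorem le_rx (N : ℕ) (hN : 1 ≤ N) (x y : Tor (2 ^ N)) :
    16 * dsq x y ≤ (torus N hN).rx x y := by
  change _ ≤ (4 : ℝ) ^ N * ∑ i, ‖tU N N i x - tU N N i y‖ ^ 2
  rw [dsq, mul_sum, mul_sum]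
  exact sum_le_sum fun i _ => (chord_two_sided N i x y).1

namespace Su

variable (S : Su)

/-- the constant of the moment bounds -/
def cm (h : ℝ) : ℝ := 2 * (Real.exp 4 * 24 * (2 / min 1 (h / 16)) ^ 4)

theorem one_le_cm {h : ℝ} (hh : 0 < h) : 1 ≤ cm h := by
  have h0 : 0 < min 1 (h / 16) := lt_min one_pos (by positivity)
  have h1 : 1 ≤ 2 / min 1 (h / 16) := (one_le_div h0).2 ((min_le_left _ _).trans one_le_two)
  have h2 := one_le_pow₀ (n := 4) h1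
  have h3 := Real.one_le_exp (show (0 : ℝ) ≤ 4 by norm_num)
  unfold cm
  nlinarith

theorem mom {γ : S.L.X → ℝ} (hγ : ∀ x, 0 ≤ γ x) (hpl : ∀ x, S.g.plain x → S.h ≤ γ x)
    (a : S.L.X → ℝ) (y : S.L.X) {p : ℕ} (hp : p ≤ 4) :
    ∑ x, (d1 (M := 2 ^ S.N) x y : ℝ) ^ p * ((S.η + γ y) * (S.η + γ x) *
      ‖S.L.Gr (S.L.wv S.E S.η γ a) x y‖ ^ 2) ≤ cm S.h * (S.b : ℝ) ^ 4 := by
  have hh := S.hh
  have h0 : 0 < min 1 (S.h / 16) := lt_min one_pos (by positivity)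
  have him : ∀ x, -(S.L.wv S.E S.η γ a x).im = S.η + γ x := fun x => by simp [Lat.wv]
  have h := S.g.moment_le (S.L.wv S.E S.η γ a) (fun x => S.L.Gr (S.L.wv S.E S.η γ a) x y) y
    (fun x => by linarith [him x, hγ x, S.η0]) (Gr_col S.L S.E S.η0 hγ a y) h0 (min_le_left _ _)
    (s := S.h) (by linarith [min_le_right 1 (S.h / 16)])
    (fun x hx => by linarith [him x, hpl x hx, S.η0]) p
  refine le_trans (le_of_eq (sum_congr rfl fun x _ => ?_)) (h.trans ?_)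
  · rw [← him x, ← him y]
  have hb : (1 : ℝ) ≤ S.b := by exact_mod_cast S.g.eight_le_b.trans' (by norm_num)
  have h1 : 1 ≤ 2 * (S.b : ℝ) / min 1 (S.h / 16) :=
    (one_le_div h0).2 ((min_le_left _ _).trans (by linarith))
  have h2 : (p.factorial : ℝ) ≤ 24 := by exact_mod_cast Nat.factorial_le hp
  calc _ ≤ 2 * (Real.exp 4 * 24 * (2 * (S.b : ℝ) / min 1 (S.h / 16)) ^ 4) := by gcongr
    _ = _ := by unfold cm; ring

theorem ini_le {F : S.L.Mat → ℝ} {B : ℝ} (h0 : ∀ K, 0 ≤ F K)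
    (hF : ∀ γ a : S.L.X → ℝ, (∀ x, 0 ≤ γ x) → (∀ x, S.g.plain x → S.h ≤ γ x) →
      F (S.L.Km S.E S.η γ a) ≤ B) : S.ini F ≤ B := by
  have p0 := isProb_lawC' S.hh S.η 0
  have p1 := law_prob S.a0 S.b0_pos
  have p2 : ∀ γ, IsProbabilityMeasure (S.port γ) := fun γ => by unfold port; infer_instance
  have p3 : ∀ x, IsProbabilityMeasure (S.mu (lawC S.h S.η 0) (S.port S.γ₁) (S.port S.γ₂) x) :=
    fun x => inferInstanceAs (IsProbabilityMeasure (S.g.mu _ _ _ (show Tor S.g.M from x)))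
  have p4 := S.lab.isProb_ens S.hh S.η (S.mu (lawC S.h S.η 0) (S.port S.γ₁) (S.port S.γ₂))
  have hae := S.lab.ae_ens S.hh S.η (S.mu (lawC S.h S.η 0) (S.port S.γ₁) (S.port S.γ₂))
    (p := fun x t => S.g.plain x → S.h ≤ ga S.η t) fun l x => by
      by_cases hx : S.g.plain x
      · have e : S.lab.law S.η (S.mu (lawC S.h S.η 0) (S.port S.γ₁) (S.port S.γ₂)) l x =
            lift (S.η + S.h) (dens (ud S.h)) :=
          (S.lab.law_of_act _ _ (Geo.act_plain S.hh S.B₁ S.B₂ l hx)).trans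
            ((Geo.mu_plain _ _ _ hx).trans (lawC_zero S.hh _))
        rw [e]
        filter_upwards [ae_lift_im (S.η + S.h) (dens (ud S.h))] with t ht _
        rw [show t = pt (S.η + S.h) t.re from Complex.ext (by simp) (by simpa using ht),
          ga_pt _ _ S.hh.le]
      · exact Filter.Eventually.of_forall fun t h => absurd h hx
  refine (integral_mono_of_nonneg (Filter.Eventually.of_forall fun w => h0 _) (integrable_const B)
    (hae.mono fun w hw => hF _ _ (fun x => ga_nonneg _ _) hw)).trans ?_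
  simp

end Su

theorem wF_le (L : G.Lat) (c : L.X) {R2 : ℝ} (hR : 1 ≤ R2) (p q : L.P) :
    L.wF c R2 p q ≤ 2 * L.rx p.1 q.1 *
      ((R2 * (1 + L.rx p.1 c / R2) ^ 2)⁻¹ + (R2 * (1 + L.rx q.1 c / R2) ^ 2)⁻¹) := by
  have h1 := div_nonneg (L.rx_nonneg p.1 c) (show 0 ≤ R2 by linarith)
  have h2 := div_nonneg (L.rx_nonneg q.1 c) (show 0 ≤ R2 by linarith)
  have h3 := L.rx_nonneg p.1 q.1
  rw [Lat.wF, L.rx_eq]
  generalize L.rx p.1 c / R2 = u at *
  generalize L.rx q.1 c / R2 = v at *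
  have e1 : 4 * (L.rx p.1 q.1 / R2) / ((1 + u) * (1 + v)) =
      2 * L.rx p.1 q.1 / R2 * (2 * (1 + u)⁻¹ * (1 + v)⁻¹) := by field_simp; ring
  have e2 : 2 * L.rx p.1 q.1 * ((R2 * (1 + u) ^ 2)⁻¹ + (R2 * (1 + v) ^ 2)⁻¹) =
      2 * L.rx p.1 q.1 / R2 * ((1 + u)⁻¹ ^ 2 + (1 + v)⁻¹ ^ 2) := by field_simp
  rw [e1, e2]
  exact mul_le_mul_of_nonneg_left (two_mul_le_add_sq _ _) (by positivity)

theorem init : InitStmt := by
  intro h hh
  have hc := Su.one_le_cm hh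
  refine ⟨5120 * Su.cm h, by linarith, fun S hS => ?_⟩
  subst hS
  have hb : (1 : ℝ) ≤ S.b := by exact_mod_cast S.g.eight_le_b.trans' (by norm_num)
  have hv : (0 : ℝ) ≤ S.vol := Nat.cast_nonneg _
  have hpos : ∀ {γ : S.L.X → ℝ}, (∀ x, 0 ≤ γ x) → ∀ (a : S.L.X → ℝ) (x y : S.L.X),
      0 ≤ (S.η + γ y) * (S.η + γ x) * ‖S.L.Gr (S.L.wv S.E S.η γ a) x y‖ ^ 2 := fun hγ a x y => by
    have := hγ x; have := hγ y; have := S.η0; positivity
  have key : ∀ (W : S.L.X → S.L.X → ℝ) (k : ℝ) (p : ℕ), 0 ≤ k → p ≤ 4 →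
      (∀ x y, W x y ≤ k * (d1 (M := 2 ^ S.N) x y : ℝ) ^ p) → ∀ γ a : S.L.X → ℝ, (∀ x, 0 ≤ γ x) →
      (∀ x, S.g.plain x → S.h ≤ γ x) → ∀ y, ∑ x, W x y * ((S.η + γ y) * (S.η + γ x) *
        ‖S.L.Gr (S.L.wv S.E S.η γ a) x y‖ ^ 2) ≤ k * (Su.cm S.h * (S.b : ℝ) ^ 4) := by
    intro W k p hk hp hW γ a hγ hpl y
    refine le_trans ?_ (mul_le_mul_of_nonneg_left (S.mom hγ hpl a y hp) hk)
    rw [mul_sum]
    refine sum_le_sum fun x _ => ?_
    rw [← mul_assoc k]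
    exact mul_le_mul_of_nonneg_right (hW x y) (hpos hγ a x y)
  have hB : 0 ≤ Su.cm S.h * (S.b : ℝ) ^ 4 := by positivity
  refine ⟨S.ini_le (En_nonneg (S.L.rho2_nonneg _)) fun γ a hγ hpl => ?_,
    fun m hm => S.ini_le (En_nonneg (S.L.s4_nonneg _)) fun γ a hγ hpl => ?_,
    fun c R2 lam p hR hl => S.ini_le (fun K => pow_nonneg (add_nonneg hl
      (En_nonneg (wF_nonneg S.L c (by linarith)) K)) p) fun γ a hγ hpl => ?_⟩
  · have h1 := sum_le_card_nsmul univ _ _ fun y _ =>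
      key S.L.rx 40 2 (by norm_num) (by norm_num) (rx_le S.N S.hN) γ a hγ hpl y
    rw [nsmul_eq_mul, card_univ, ← Su.vol] at h1
    refine (En_Km S.L S.E S.η0 hγ a S.L.rx).trans_le ?_
    nlinarith [mul_nonneg hv hB]
  · have h16 : (0 : ℝ) < 16 ^ m := by positivity
    have h1 := sum_le_card_nsmul univ _ _ fun y _ =>
      key (fun x y => S.L.s4 m (x, true) (y, true)) (100 / 16 ^ m) 4 (by positivity) le_rfl
        (fun x y => by
          refine (S.L.s4_le hm _ _).2.trans ?_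
          have h2 := rx_le S.N S.hN x y
          have h3 := S.L.rx_nonneg x y
          calc _ ≤ (40 * (d1 (M := 2 ^ S.N) x y : ℝ) ^ 2 / 4 ^ (m + 1)) ^ 2 := by
                rw [S.L.rx_eq]; gcongr
            _ = _ := by
                rw [show (16 : ℝ) ^ m = (4 ^ m) ^ 2 by rw [← pow_mul, mul_comm, pow_mul]; norm_num]
                field_simp; ring) γ a hγ hpl y
    rw [nsmul_eq_mul, card_univ, ← Su.vol] at h1
    refine (En_Km S.L S.E S.η0 hγ a fun x y => S.L.s4 m (x, true) (y, true)).trans_le ?_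
    have h2 : (S.b : ℝ) ^ 4 ≤ (S.b : ℝ) ^ 6 := pow_le_pow_right₀ hb (by norm_num)
    calc _ ≤ 4 * (S.vol * (100 / 16 ^ m * (Su.cm S.h * (S.b : ℝ) ^ 4))) := by linarith
      _ = 400 * Su.cm S.h * (S.b : ℝ) ^ 4 / 16 ^ m * S.vol := by ring
      _ ≤ _ := by gcongr; norm_num
  · refine pow_le_pow_left₀ (add_nonneg hl (En_nonneg (wF_nonneg S.L c (by linarith)) _))
      (add_le_add le_rfl ?_) p
    set mm : S.L.X → ℝ := fun x => (R2 * (1 + S.L.rx x c / R2) ^ 2)⁻¹ with hmm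
    have m0 : ∀ x, 0 ≤ mm x := fun x => by simp only [hmm]; positivity
    have hK := S.L.port_Km S.E S.η0 hγ a
    have e1 : En (S.L.wF c R2) (S.L.Km S.E S.η γ a) ≤
        En (fun p q => 4 * S.L.rx p.1 q.1 * mm q.1) (S.L.Km S.E S.η γ a) := by
      have e2 : ∑ p, ∑ q, cc (S.L.Km S.E S.η γ a) p q * (2 * S.L.rx p.1 q.1 * mm p.1) =
          ∑ p, ∑ q, cc (S.L.Km S.E S.η γ a) p q * (2 * S.L.rx p.1 q.1 * mm q.1) := by
        rw [sum_comm]
        exact sum_congr rfl fun p _ => sum_congr rfl fun q _ => by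
          rw [hK.cc_symm q p, S.L.rx_symm q.1 p.1]
      calc _ ≤ ∑ p, ∑ q, (cc (S.L.Km S.E S.η γ a) p q * (2 * S.L.rx p.1 q.1 * mm p.1) +
              cc (S.L.Km S.E S.η γ a) p q * (2 * S.L.rx p.1 q.1 * mm q.1)) :=
            sum_le_sum fun p _ => sum_le_sum fun q _ => by
              rw [← mul_add, ← mul_add]
              exact mul_le_mul_of_nonneg_left (wF_le S.L c hR p q) (cc_nonneg _ _ _)
        _ = _ := by
            simp only [sum_add_distrib, e2]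
            simp only [← sum_add_distrib]
            exact sum_congr rfl fun p _ => sum_congr rfl fun q _ => by ring
    refine e1.trans ((En_Km S.L S.E S.η0 hγ a fun x y => 4 * S.L.rx x y * mm y).trans_le ?_)
    have h1 : ∀ y, ∑ x, 4 * S.L.rx x y * mm y * ((S.η + γ y) * (S.η + γ x) *
        ‖S.L.Gr (S.L.wv S.E S.η γ a) x y‖ ^ 2) ≤ mm y * (160 * (Su.cm S.h * (S.b : ℝ) ^ 4)) := by
      intro y
      refine le_trans (le_of_eq ?_) (mul_le_mul_of_nonneg_left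
        (key (fun x y => 4 * S.L.rx x y) 160 2 (by norm_num) (by norm_num)
          (fun x y => by linarith [rx_le S.N S.hN x y]) γ a hγ hpl y) (m0 y))
      rw [mul_sum]
      exact sum_congr rfl fun x _ => by ring
    have h2 := sum_le_sum fun y (_ : y ∈ univ) => h1 y
    rw [← sum_mul] at h2
    have h3 : ∑ x, mm x ≤ 8 := Det.shell S.L c hR
    nlinarith [mul_le_mul_of_nonneg_right h3 hB]

end Crest.Agent.N334.Mn
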