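import Crest.Agent.N334.Main.Defs

/-!
# Row 334, S0519 (helper24): the parameter ledger
-/

set_option autoImplicit false

open Filter

namespace Crest.Agent.N334.Mn

theorem clog_two (n : ℕ) (hn : 2 ≤ n) : n ≤ 2 ^ Nat.clog 2 n ∧ 2 ^ Nat.clog 2 n ≤ 2 * n := by
  refine ⟨Nat.le_pow_clog (by norm_num) n, ?_⟩
  have h1 := Nat.pow_pred_clog_lt_self (b := 2) (by norm_num) (show 1 < n by omega)
  have h2 := Nat.clog_pos (b := 2) (by norm_num) (show 1 < n by omega)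
  obtain ⟨k, hk⟩ := Nat.exists_eq_succ_of_ne_zero h2.ne'
  rw [hk] at h1 ⊢
  rw [Nat.pred_succ] at h1
  rw [pow_succ]; omega

theorem ledger : LedgerStmt := by
  intro C hC
  have hC0 : 0 < C := by linarith
  have e1 := (Real.isLittleO_pow_log_id_atTop (n := 3)).bound (c := (216 * C)⁻¹) (by positivity)
  have e2 := (isLittleO_pow_exp_pos_mul_atTop 43 (b := C⁻¹) (by positivity)).bound one_pos
  have ht : Tendsto (fun τ : ℝ => Real.log τ ^ (1 / 4 : ℝ)) atTop atTop :=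
    (tendsto_rpow_atTop (by norm_num)).comp Real.tendsto_log_atTop
  filter_upwards [ht.eventually (e1.and (e2.and ((eventually_ge_atTop 301).and
    (eventually_ge_atTop (20 * C))))), eventually_ge_atTop 1] with τ ⟨h1, h2, h3, h4⟩ hτ
  obtain ⟨v, hv⟩ : ∃ v, v = Real.log τ ^ (1 / 4 : ℝ) := ⟨_, rfl⟩
  have hτv : τ = Real.exp (v ^ 4) := by
    rw [hv, ← Real.rpow_natCast, ← Real.rpow_mul (Real.log_nonneg hτ)]
    norm_num
    rw [Real.exp_log (by linarith)]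
  rw [← hv] at h1 h2 h3 h4
  have hv0 : 0 < v := by linarith
  have hv1 : 1 ≤ v := by linarith
  have hl := Real.log_nonneg hv1
  simp only [id, Real.norm_eq_abs, abs_of_pos hv0, abs_of_nonneg (pow_nonneg hl 3), one_mul,
    abs_of_pos (pow_pos hv0 43), abs_of_pos (Real.exp_pos _)] at h1 h2
  rw [le_inv_mul_iff₀ (by positivity)] at h1
  have hs : √τ = Real.exp (v ^ 4 / 2) := by rw [hτv, Real.exp_half]
  have p4 : v ≤ v ^ 4 := le_self_pow₀ hv1 (by norm_num)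
  have p3 : 10 ≤ v ^ 3 := le_trans (by linarith) (le_self_pow₀ hv1 (by norm_num))
  have q1 : C⁻¹ * v ≤ v := mul_le_of_le_one_left hv0.le (inv_le_one_of_one_le₀ hC)
  have q2 : 10 * v ≤ v ^ 4 := by nlinarith
  obtain ⟨r₁, a1, a2⟩ : ∃ r : ℕ, v ≤ r ∧ (r : ℝ) ≤ 2 * v :=
    ⟨⌈v⌉₊, Nat.le_ceil _, by linarith [Nat.ceil_lt_add_one hv0.le]⟩
  obtain ⟨r₂, b1, b2⟩ : ∃ r : ℕ, 300 * C * v ^ 4 ≤ r ∧ (r : ℝ) ≤ v ^ 6 := by
    refine ⟨⌈300 * C * v ^ 4⌉₊, Nat.le_ceil _, (Nat.ceil_lt_add_one (by positivity)).le.trans ?_⟩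
    have : 300 * C * v ^ 4 ≤ 300 * v * v ^ 4 := by gcongr; linarith
    have : 301 * v ^ 5 ≤ v * v ^ 5 := by gcongr
    nlinarith [one_le_pow₀ (n := 5) hv1]
  have c1 : r₁ ^ 2 ≤ r₂ := by
    have : (r₁ : ℝ) ^ 2 ≤ r₂ := by
      calc _ ≤ (2 * v) ^ 2 := by gcongr
        _ = 4 * 1 * v ^ 2 := by ring
        _ ≤ 300 * C * v ^ 4 := by gcongr <;> norm_num
        _ ≤ _ := b1
    exact_mod_cast this
  have c2 : 301 ≤ r₁ := by exact_mod_cast h3.trans a1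
  have c3 : r₁ ≤ r₂ := le_trans (Nat.le_self_pow (by norm_num) _) c1
  have c4 : ∀ r : ℕ, 301 ≤ r → 2 * (r + 8) ≤ r ^ 3 := fun r hr => by
    have : 301 * 301 * r ≤ r * r * r := by gcongr
    nlinarith
  obtain ⟨d1, d2⟩ := clog_two (r₁ + 8) (by omega)
  obtain ⟨d3, d4⟩ := clog_two (r₂ + 8) (by omega)
  have d6 := pow_dvd_pow 2 (Nat.clog_mono_right 2 (show r₁ + 8 ≤ r₂ + 8 by omega))
  have hr2 : (1 : ℝ) ≤ r₂ := by exact_mod_cast (by omega)
  have d5 : ((2 ^ Nat.clog 2 (r₂ + 8) : ℕ) : ℝ) ≤ v ^ 7 := by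
    have : ((2 ^ Nat.clog 2 (r₂ + 8) : ℕ) : ℝ) ≤ 18 * r₂ := by exact_mod_cast (by omega)
    calc _ ≤ 18 * (r₂ : ℝ) := this
      _ ≤ v * v ^ 6 := by gcongr; linarith
      _ = _ := by ring
  have hCv : C ≤ v := by linarith
  clear e1 e2 ht hv
  generalize Nat.clog 2 (r₂ + 8) = j at *
  refine ⟨_, _, _, r₁, r₂, d6, rfl, d1, d2, d3, d4,
    by linarith, ?_, c1, d2.trans (c4 _ c2), d4.trans (c4 _ (c2.trans c3)), ?_, ?_, ?_, ?_, hτ⟩
  · have : Real.log r₂ ≤ 6 * Real.log v := by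
      rw [show (6 : ℝ) = (6 : ℕ) by norm_num, ← Real.log_pow]; gcongr
    calc _ ≤ C * (6 * Real.log v) ^ 3 := by gcongr
      _ ≤ _ := by linarith
  · rw [Real.exp_neg, inv_mul_le_iff₀ (Real.exp_pos _), mul_one]
    calc _ ≤ v * (v ^ 6) ^ 3 := by gcongr
      _ = v ^ 19 := by ring
      _ ≤ v ^ 43 := pow_le_pow_right₀ hv1 (by norm_num)
      _ ≤ _ := h2.trans (Real.exp_le_exp.2 (by rw [inv_mul_eq_div]; gcongr))
  · rw [hτv, ← Real.exp_nat_mul, one_div, ← Real.exp_neg, Real.exp_neg (_ / _),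
      inv_mul_le_iff₀ (Real.exp_pos _), ← Real.exp_add]
    have : 300 * v ^ 4 ≤ r₂ / C := by rw [le_div_iff₀ hC0]; linarith
    calc _ ≤ v * (v ^ 7) ^ 4 := by gcongr
      _ = v ^ 29 := by ring
      _ ≤ v ^ 43 := pow_le_pow_right₀ hv1 (by norm_num)
      _ ≤ _ := h2.trans (Real.exp_le_exp.2 (by push_cast; linarith))
  · rw [hs]
    calc _ ≤ v * (v ^ 7) ^ 6 := by gcongr
      _ = v ^ 43 := by ring
      _ ≤ _ := h2.trans (Real.exp_le_exp.2 (by linarith))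
  · rw [hs]
    have e3 : C * (r₁ : ℝ) ^ 3 ≤ v / 20 * (2 * v) ^ 3 := by gcongr; linarith
    calc _ ≤ Real.exp 1 * Real.exp (C * (r₁ : ℝ) ^ 3) := by
          gcongr; linarith [Real.add_one_le_exp 1]
      _ ≤ _ := by rw [← Real.exp_add]; exact Real.exp_le_exp.2 (by linarith)

end Crest.Agent.N334.Mn
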