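import Crest.Agent.N334.Main.Init
import Crest.Agent.N334.Sw.Iw
import Crest.Agent.N334.Soft.Fin

/-!
# Row 334, S0519 (helper21): from the torus energy to the moment of the end game
-/

set_option autoImplicit false

open MeasureTheory Finset
open scoped ENNReal

noncomputable section

namespace Crest.Agent.N334.Mn

open G I Sw Crest.MathPhysics.Anderson

namespace Lk

theorem map_unif {h : ℝ} (hh : 0 < h) :
    (volume : Measure unitInterval).map (fun u : unitInterval => h * (2 * (u : ℝ) - 1)) =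
      dens (ud h) := by
  have hg : Measurable fun t : ℝ => h * (2 * t - 1) := by fun_prop
  have e1 : ud h = (Set.Icc (-h) h).indicator fun _ => 1 / (2 * h) := by
    funext a
    simp only [ud, Set.indicator, Set.mem_Icc, abs_le]
  have e2 : (volume : Measure ℝ).map (fun t : ℝ => h * (2 * t - 1)) =
      ENNReal.ofReal (1 / (2 * h)) • volume := by
    have : (fun t : ℝ => h * (2 * t - 1)) = (fun t => t + -h) ∘ fun t => (2 * h) * t := by
      funext t; simp only [Function.comp]; ring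
    rw [this, ← Measure.map_map (by fun_prop) (by fun_prop),
      Real.map_volume_mul_left (by positivity), Measure.map_smul, map_add_right_eq_self,
      abs_of_pos (by positivity), one_div]
  have e3 : (fun t : ℝ => h * (2 * t - 1)) ⁻¹' Set.Icc (-h) h = Set.Icc 0 1 := by
    ext t
    simp only [Set.mem_preimage, Set.mem_Icc]
    constructor <;> rintro ⟨h1, h2⟩ <;> constructor <;> nlinarith
  rw [e1, dens_indicator, ← Measure.restrict_smul, ← e2, Measure.restrict_map hg measurableSet_Icc,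
    e3, ← unitInterval.measurePreserving_coe.map_eq, Measure.map_map hg measurable_subtype_coe]
  rfl

/-- the configuration read off from a realisation -/
def cfg {V : Type} (h η : ℝ) (e : V → Fin 2 → ℤ) (ω : (Fin 2 → ℤ) → unitInterval) (x : V) : ℂ :=
  pt η (h * centredPotential ω (e x))

theorem mp_cfg {V : Type} [Fintype V] {h : ℝ} (hh : 0 < h) (η : ℝ) {e : V → Fin 2 → ℤ}
    (he : Function.Injective e) : MeasurePreserving (cfg h η e) (siteMeasure (Fin 2 → ℤ))
      (Measure.pi fun _ => lift η (dens (ud h))) := by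
  have := isProb_unif hh
  have hf : Measurable fun u : unitInterval => pt η (h * (2 * (u : ℝ) - 1)) := by fun_prop
  have hm : Measurable (cfg h η e) :=
    measurable_pi_lambda _ fun x => hf.comp (measurable_pi_apply (e x))
  refine ⟨hm, (Measure.pi_eq fun s hs => ?_).symm⟩
  rw [Measure.map_apply hm (MeasurableSet.univ_pi hs)]
  set t : (Fin 2 → ℤ) → Set unitInterval := fun i =>
    ⋂ x, ⋂ _ : e x = i, (fun u : unitInterval => pt η (h * (2 * (u : ℝ) - 1))) ⁻¹' s x with ht
  have h1 : cfg h η e ⁻¹' Set.pi Set.univ s = Set.pi (univ.map ⟨e, he⟩ : Finset _) t := by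
    ext ω
    simp only [ht, Set.mem_preimage, Set.mem_pi, Set.mem_univ, true_imp_iff, mem_coe, mem_map,
      mem_univ, true_and, Function.Embedding.coeFn_mk, Set.mem_iInter]
    exact ⟨fun H i _ x hx => hx ▸ H x, fun H x => H (e x) ⟨x, rfl⟩ x rfl⟩
  rw [h1, siteMeasure, Measure.infinitePi_pi _ fun i _ =>
    MeasurableSet.iInter fun x => MeasurableSet.iInter fun _ => hf (hs x), prod_map]
  refine prod_congr rfl fun x _ => ?_
  have h2 : t (e x) = (fun u : unitInterval => pt η (h * (2 * (u : ℝ) - 1))) ⁻¹' s x := by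
    ext u
    simp only [ht, Set.mem_iInter]
    exact ⟨fun H => H x rfl, fun H y hy => he hy ▸ H⟩
  change volume (t (e x)) = _
  rw [h2, ← Measure.map_apply hf (hs x), lift, ← map_unif hh,
    Measure.map_map (measurable_pt η) (by fun_prop)]
  rfl

open scoped Matrix.Norms.L2Operator in
theorem norm_le_of_bd {ι : Type} [Fintype ι] [DecidableEq ι] {A : Matrix ι ι ℂ} {C : ℝ}
    (hC : 0 ≤ C) (h : AC.Bd A C) : ‖A‖ ≤ C := by
  rw [Matrix.l2_opNorm_def]
  refine ContinuousLinearMap.opNorm_le_bound _ hC fun x => ?_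
  rw [EuclideanSpace.norm_eq, EuclideanSpace.norm_eq]
  exact h.sqrt hC x.ofLp

/-- the torus as a finite volume -/
def fv (n N : ℕ) (hN : 1 ≤ N) (hn : 2 * (n + 1) < 2 ^ N) : Soft.FinVol n where
  ι := Tor (2 ^ N)
  e := ⟨off 0, off_injective 0⟩
  A := Matrix.of tadj
  symm := Matrix.IsSymm.ext fun x y => tadj_symm y x
  norm_le := norm_le_of_bd (by norm_num) (by
    have := Det.schur (torus N hN) (M := (torus N hN).A.map Complex.ofReal) zero_le_one
      fun x y => by simp
    rw [mul_one] at this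
    exact this)
  o := 0
  e_o := off_self 0
  cover x hx := ⟨shift 0 x, off_shift 0 fun j => by have := abs_le.1 (hx j); omega⟩
  adj_eq x y hx := by
    have key : ∀ v : Fin 2 → ℤ, (∀ j, (v j).natAbs ≤ 1) →
        (y = shift x v ↔ off 0 y = off 0 x + v) := fun v hv => by
      have e : shift x v = shift 0 (off 0 x + v) := by rw [shift_add, shift_off]
      refine ⟨fun H => ?_, fun H => by rw [e, ← H, shift_off]⟩
      rw [H, e]
      refine off_shift 0 fun j => ?_
      have h1 := abs_le.1 (show |off 0 x j| ≤ n from hx j)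
      have h2 := hv j
      simp only [Pi.add_apply]
      omega
    have h1 : ∀ i j : Fin 2, ((Pi.single i 1 : Fin 2 → ℤ) j).natAbs ≤ 1 := fun i j =>
      (natAbs_le_n1 _ j).trans (by rw [n1_single]; rfl)
    change tadj x y = Soft.adj (off 0 x) (off 0 y)
    unfold tadj Soft.adj
    refine sum_congr rfl fun i _ => ?_
    rw [← shift_single, ← shift_neg_single]
    congr 1
    · exact if_congr (key _ (h1 i)) rfl rfl
    · exact if_congr ((key _ fun j => by simpa using h1 i j).trans (by rw [sub_eq_add_neg]))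
        rfl rfl

/-- passive part of the energy of the column `y` -/
def col (N : ℕ) (hN : 1 ≤ N) (y : Tor (2 ^ N)) (K : (torus N hN).Mat) : ℝ :=
  ∑ x : Tor (2 ^ N), cc K (x, false) (y, false) * dsq x y

theorem col_nonneg (N : ℕ) (hN : 1 ≤ N) (y : Tor (2 ^ N)) (K : (torus N hN).Mat) :
    0 ≤ col N hN y K := sum_nonneg fun _ _ => mul_nonneg (cc_nonneg _ _ _) (dsq_nonneg _ _)

theorem sum_col_le (N : ℕ) (hN : 1 ≤ N) (K : (torus N hN).Mat) :
    ∑ y, col N hN y K ≤ En (torus N hN).r2 K := by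
  have h0 : ∀ p q, 0 ≤ cc K p q * (torus N hN).r2 p q := fun p q =>
    mul_nonneg (cc_nonneg _ _ _) ((torus N hN).rho2_nonneg _ p q)
  unfold col En Gam
  rw [sum_comm, Fintype.sum_prod_type]
  refine sum_le_sum fun x _ => le_trans ?_
    (single_le_sum (fun b _ => sum_nonneg fun q _ => h0 (x, b) q) (mem_univ false))
  rw [Fintype.sum_prod_type]
  refine sum_le_sum fun y _ => le_trans ?_
    (single_le_sum (fun b _ => h0 (x, false) (y, b)) (mem_univ false))
  refine mul_le_mul_of_nonneg_left ?_ (cc_nonneg _ _ _)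
  have h1 := le_rx N hN x y
  have h2 := dsq_nonneg x y
  exact le_trans (by linarith) h1

/-- the torus matrix -/
def HT {M : ℕ} (v : Tor M → ℂ) : Matrix (Tor M) (Tor M) ℂ :=
  (Matrix.of tadj).map Complex.ofReal + Matrix.diagonal v

theorem HT_shift {M : ℕ} [NeZero M] (v : Tor M → ℂ) (x y : Tor M) :
    (HT fun z => v (z - y))⁻¹ x y = (HT v)⁻¹ (x - y) 0 := by
  have e1 : (HT fun z => v (z - y)) = (HT v).submatrix (Equiv.subRight y) (Equiv.subRight y) := by
    ext x z
    have a1 : tadj (x - y) (z - y) = tadj x z := by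
      rw [sub_eq_add_neg, sub_eq_add_neg, tadj_add_right]
    simp [HT, a1, Matrix.diagonal_apply]
  rw [e1, Matrix.inv_submatrix_equiv]
  simp

theorem cc_Km (L : G.Lat) (E : ℝ) {η : ℝ} (hη : 0 < η) (γ a : L.X → ℝ) (x y : L.X) :
    cc (L.Km E η γ a) (x, false) (y, false) = 4 * η ^ 2 * ‖L.Gr (L.wv E η γ a) x y‖ ^ 2 := by
  have e : ∀ z, L.str η γ (z, false) = η := fun _ => rfl
  simp only [cc, Lat.Km, norm_mul, mul_pow, Complex.norm_real, Real.norm_eq_abs, sq_abs,
    Complex.norm_I, Complex.norm_ofNat]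
  rw [e, e, Real.sq_sqrt hη.le]
  ring

theorem HT_sub {M : ℕ} (v : Tor M → ℂ) (z : ℂ) : HT v - z • 1 = HT fun x => v x - z := by
  rw [HT, add_sub_assoc, Matrix.smul_one_eq_diagonal, Matrix.diagonal_sub, HT]

theorem col_cfg {n N : ℕ} (hN : 1 ≤ N) (hn : 2 * (n + 1) < 2 ^ N) (h E : ℝ) {η : ℝ} (hη : 0 < η)
    (y : Tor (2 ^ N)) (ω : (Fin 2 → ℤ) → unitInterval) :
    col N hN y (Kw (torus N hN) E η (cfg h η (off y) ω)) =
      4 * (η ^ 2 * (fv n N hN hn).mom h ⟨E, η⟩ ω) := by
  set v : Tor (2 ^ N) → ℂ := fun z => ((h * centredPotential ω (off 0 z) : ℝ) : ℂ) - ⟨E, η⟩ with hv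
  have e0 : (fv n N hN hn).H h ω - (⟨E, η⟩ : ℂ) • 1 = HT v :=
    HT_sub (fun z : Tor (2 ^ N) => ((h * centredPotential ω (off 0 z) : ℝ) : ℂ)) ⟨E, η⟩
  have e1 : (torus N hN).wv E η (fun x => ga η (cfg h η (off y) ω x))
      (fun x => (cfg h η (off y) ω x).re) = fun z : Tor (2 ^ N) => v (z - y) := by
    refine funext fun z : Tor (2 ^ N) => ?_
    simp only [hv, ← off_eq_off_zero]
    simp only [Lat.wv, cfg, ga_pt_zero, pt_re]
    apply Complex.ext <;> simp
  have e2 : ∀ x : Tor (2 ^ N), cc (Kw (torus N hN) E η (cfg h η (off y) ω)) (x, false) (y, false) =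
      4 * η ^ 2 * ‖(HT v)⁻¹ (x - y) 0‖ ^ 2 := fun x => by
    refine (cc_Km (torus N hN) E hη _ _ x y).trans ?_
    rw [← HT_shift]
    exact congrArg (fun u : Tor (2 ^ N) → ℂ => 4 * η ^ 2 * ‖(HT u)⁻¹ x y‖ ^ 2) e1
  simp only [col, e2]
  rw [← mul_assoc, Soft.FinVol.mom, mul_sum, e0]
  refine Fintype.sum_equiv (Equiv.subRight y) _ _ fun x => ?_
  rw [dsq, off_eq_off_zero]
  change _ = 4 * η ^ 2 * ((∑ j, (off 0 (x - y) j : ℝ) ^ 2) * ‖(HT v)⁻¹ (x - y) 0‖ ^ 2)
  ring

theorem avg_le {Ω V : Type*} [MeasurableSpace Ω] [Fintype V] [Nonempty V] (μ : Measure Ω)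
    {f : V → Ω → ℝ} {g : Ω → ℝ} (hf : ∀ y, Measurable (f y)) (h0 : ∀ y w, 0 ≤ f y w)
    (hg : Integrable g μ) (hfg : ∀ w, ∑ y, f y w ≤ g w) {Z : ℝ≥0∞} {X : ℝ}
    (hZ : ∀ y, Z ≤ ∫⁻ w, ENNReal.ofReal (f y w) ∂μ) (hX : ∫ w, g w ∂μ ≤ X * Fintype.card V) :
    Z ≤ ENNReal.ofReal X := by
  have h2 := sum_le_sum fun y (_ : y ∈ univ) => hZ y
  rw [← lintegral_finsetSum _ fun y _ => (hf y).ennreal_ofReal, sum_const, card_univ,
    nsmul_eq_mul] at h2
  have h3 : ∫⁻ w, ∑ y, ENNReal.ofReal (f y w) ∂μ ≤ ENNReal.ofReal (∫ w, g w ∂μ) := by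
    rw [ofReal_integral_eq_lintegral_ofReal hg
      (Filter.Eventually.of_forall fun w => (sum_nonneg fun y _ => h0 y w).trans (hfg w))]
    refine lintegral_mono fun w => ?_
    rw [← ENNReal.ofReal_sum_of_nonneg fun y _ => h0 y w]
    exact ENNReal.ofReal_le_ofReal (hfg w)
  have h4 := (h2.trans h3).trans (ENNReal.ofReal_le_ofReal hX)
  rw [mul_comm X, ENNReal.ofReal_mul (Nat.cast_nonneg _), ENNReal.ofReal_natCast] at h4
  exact (ENNReal.mul_le_mul_iff_right (Nat.cast_ne_zero.2 Fintype.card_ne_zero)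
    (ENNReal.natCast_ne_top _)).1 h4

theorem measurable_col (N : ℕ) (hN : 1 ≤ N) (E : ℝ) {η : ℝ} (hη : 0 < η) (y : Tor (2 ^ N)) :
    Measurable fun w : Tor (2 ^ N) → ℂ => col N hN y (Kw (torus N hN) E η w) :=
  Finset.measurable_sum _ fun x _ =>
    (bm_Kw (L := torus N hN) E hη (nice_cc (x, false) (y, false))).meas.mul_const _

end Lk

open Lk in
theorem link : LinkStmt := by
  refine ⟨1, le_rfl, fun n => ⟨2 * (n + 1), fun N hN hn => ?_⟩⟩
  have hn' : 2 * (n + 1) < 2 ^ N := hn.trans_lt Nat.lt_two_pow_self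
  refine ⟨fv n N hN hn', fun h E η X hh hη hQ => ?_⟩
  have := isProb_unif hh
  rw [one_mul]
  have hi := (bm_Kw (L := torus N hN) E hη (nice_En (torus N hN).r2)).integrable
    (Measure.pi fun _ => lift η (dens (ud h)))
  refine avg_le (V := Tor (2 ^ N)) (Measure.pi fun _ : Tor (2 ^ N) => lift η (dens (ud h)))
    (measurable_col N hN E hη) (fun y w => col_nonneg N hN y _) hi
    (fun w => sum_col_le N hN _) (fun y => ?_) hQ
  rw [← (mp_cfg hh η (off_injective y)).lintegral_comp (measurable_col N hN E hη y).ennreal_ofReal]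
  refine lintegral_mono fun ω => ENNReal.ofReal_le_ofReal ?_
  have a2 := col_cfg hN hn' h E hη y ω
  have a1 := (col_nonneg N hN y _).trans_eq a2
  exact le_trans (by linarith) a2.ge

end Crest.Agent.N334.Mn
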