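import Crest.Agent.N334.Main.Defs

/-!
# Row 334, S0519 (helper49): the block statements give `QStmt`
-/

set_option autoImplicit false

open MeasureTheory Finset Filter

noncomputable section

namespace Crest.Agent.N334.Mn

open G I Sw

/-- the bound at one scale, uniform in the energy and in the volume -/
theorem q_bound (hW : WorldStmt) (hI : InitStmt) (hS : SwStmt) (hG : GainStmt) (hD : LedgerStmt)
    {h E₀ : ℝ} (hh : 0 < h) (hE : |E₀| < 4 + h) : ∃ δ C : ℝ, 0 < δ ∧ 1 ≤ C ∧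
      ∀ᶠ τ : ℝ in atTop, ∃ N₁ : ℕ, ∀ (N : ℕ) (hN : 1 ≤ N), N₁ ≤ N → ∀ E, |E - E₀| ≤ δ →
        Q0 N hN h E (Real.exp (-τ ^ 32)) ≤ C / τ ^ 160 * Fintype.card (torus N hN).X := by
  obtain ⟨δ, Cw, hδ, hCw, HW⟩ := hW h E₀ hh hE
  obtain ⟨Ci, hCi, HI⟩ := hI h hh
  obtain ⟨Cs, hCs, HS⟩ := hS
  obtain ⟨τ0, Cg, p, hCg, hp, HG⟩ := hG
  have hp' : (1 : ℝ) ≤ p := by exact_mod_cast hp
  set C : ℝ := Cw * Cs * Cg * (Ci + 1) * p with hC
  have key : ∀ x y z u v : ℝ, 0 ≤ x → x ≤ Cw → 0 ≤ y → y ≤ Cs → 0 ≤ z → z ≤ Cg → 0 ≤ u →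
      u ≤ Ci + 1 → 0 ≤ v → v ≤ p → x * y * z * u * v ≤ C := fun x y z u v _ _ _ _ _ _ _ _ _ _ => by
    rw [hC]; gcongr
  have hi1 : (1 : ℝ) ≤ Ci + 1 := by linarith
  have cw : Cw ≤ C := by
    simpa using key Cw 1 1 1 1 (by linarith) le_rfl zero_le_one hCs zero_le_one hCg zero_le_one hi1
      zero_le_one hp'
  have cws : Cs * Cw ≤ C := by
    simpa [mul_comm] using key Cw Cs 1 1 1 (by linarith) le_rfl (by linarith) le_rfl zero_le_one hCg
      zero_le_one hi1 zero_le_one hp'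
  have cwp : p * Cw ≤ C := by
    simpa [mul_comm] using key Cw 1 1 1 p (by linarith) le_rfl zero_le_one hCs zero_le_one hCg
      zero_le_one hi1 (by linarith) le_rfl
  have csp : Cs * p ≤ C := by
    simpa using key 1 Cs 1 1 p zero_le_one hCw (by linarith) le_rfl zero_le_one hCg
      zero_le_one hi1 (by linarith) le_rfl
  have cgp : Cg * p ≤ C := by
    simpa using key 1 1 Cg 1 p zero_le_one hCw zero_le_one hCs (by linarith) le_rfl
      zero_le_one hi1 (by linarith) le_rfl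
  have ci : Ci + 1 ≤ C := by
    simpa using key 1 1 1 (Ci + 1) 1 zero_le_one hCw zero_le_one hCs zero_le_one hCg
      (by linarith) le_rfl zero_le_one hp'
  have cs : Cs ≤ C := le_trans (by nlinarith) csp
  have cg : Cg ≤ C := le_trans (by nlinarith) cgp
  have c1 : 1 ≤ C := hCw.trans cw
  refine ⟨δ, Cg, hδ, hCg, ?_⟩
  filter_upwards [hD C c1, eventually_ge_atTop τ0] with τ hτ hτ0
  obtain ⟨a, b, j, r₁, r₂, hab, hbj, ha1, ha2, hb1, hb2, l1, l2, l3, l4, l5, l6, l7, l8, l9, l10⟩ :=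
    hτ
  refine ⟨max ⌈τ ^ 32⌉₊ (j + 2), fun N hN hN1 E hEE => ?_⟩
  have hb8 : (8 : ℝ) ≤ b := by exact_mod_cast (by omega : 8 ≤ b)
  have hrb : (r₂ : ℝ) ≤ b := by exact_mod_cast (by omega : r₂ ≤ b)
  have hr2 : (0 : ℝ) ≤ r₂ := Nat.cast_nonneg _
  have hr1 : (0 : ℝ) ≤ r₁ := Nat.cast_nonneg _
  set s := Real.sqrt τ with hs
  have hss : s * s = τ := Real.mul_self_sqrt (by linarith)
  have pw : ∀ i : ℕ, i ≤ 6 → (b : ℝ) ^ i ≤ (b : ℝ) ^ 6 := fun i hi =>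
    pow_le_pow_right₀ (by linarith) hi
  have big : ∀ (x : ℝ) (i : ℕ), x ≤ C → i ≤ 6 → x * (b : ℝ) ^ i ≤ s := fun x i hx hi =>
    le_trans (mul_le_mul hx (pw i hi) (by positivity) (by linarith)) l8
  have s8 : 8 ≤ s := hb8.trans (by simpa using big 1 1 c1 (by norm_num))
  have sτ : s ≤ τ := by nlinarith
  have τ2 : 2 ≤ τ := by linarith
  have τ16 : 2 * τ ≤ τ ^ 16 := by
    have : (2 : ℝ) ≤ τ ^ 15 := τ2.trans (le_self_pow₀ l10 (by norm_num))
    rw [pow_succ]; nlinarith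
  have τ32 : τ ≤ τ ^ 32 := le_self_pow₀ l10 (by norm_num)
  have r3 : (r₂ : ℝ) ^ 3 ≤ (b : ℝ) ^ 3 := by gcongr
  have big3 : ∀ x : ℝ, 0 ≤ x → x ≤ C → x * (r₂ : ℝ) ^ 3 ≤ s := fun x h0 hx =>
    le_trans (by gcongr) (big x 3 hx (by norm_num))
  have hκ : ∀ x : ℝ, x ≤ C → x ≤ ((b : ℝ) ^ 2)⁻¹ * s := fun x hx => by
    rw [← div_eq_inv_mul, le_div_iff₀ (by positivity)]
    exact big x 2 hx (by norm_num)
  have hlog : 0 ≤ Real.log r₂ ^ 3 := pow_nonneg (Real.log_natCast_nonneg _) _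
  have hε : ∀ r : ℝ, 0 ≤ r → Real.exp (-(r / Cw)) ≤ Real.exp (-(r / C)) := fun r hr => by
    gcongr
  obtain ⟨S, rfl, rfl, e3, rfl, rfl, rfl, hS⟩ := HW E (Real.exp (-τ ^ 32)) ((b : ℝ) ^ 2)⁻¹ N a b r₁ r₂
    hEE (Real.exp_pos _) (by positivity) hN hab
    (by rw [hbj, show 4 * 2 ^ j = 2 ^ (j + 2) by ring]
        exact pow_dvd_pow 2 ((le_max_right _ _).trans hN1))
    ha1 ha2 hb1 hb2 (cw.trans l1) (le_trans (by gcongr) l2) l3
    (Real.exp_le_exp.2 (neg_le_neg (by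
      have := big Cw 1 cw (by norm_num)
      rw [pow_one] at this
      nlinarith)))
    (by rw [inv_mul_cancel₀ (by positivity)])
  have hv : 0 ≤ S.vol := Nat.cast_nonneg _
  obtain ⟨I1, I2, I3⟩ := HI S rfl
  have l4' : (S.a : ℝ) ≤ (r₁ : ℝ) ^ 3 := by exact_mod_cast l4
  have l5' : (S.b : ℝ) ≤ (r₂ : ℝ) ^ 3 := by exact_mod_cast l5
  obtain ⟨S1, S2, S3⟩ := HS S _ _ _ _ _ hS (by positivity) (Real.exp_pos _).le
    (l4'.trans (le_mul_of_one_le_left (by positivity) hCw))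
    (l5'.trans (le_mul_of_one_le_left (by positivity) hCw))
    (le_trans (mul_le_mul (hε _ hr1) (by gcongr) (by positivity) (Real.exp_pos _).le) l6)
  have e1 : Real.exp (Cs * (Cw * (r₁ : ℝ) ^ 3)) ≤ s / 2 := by
    have : Real.exp (Cs * (Cw * (r₁ : ℝ) ^ 3)) ≤ Real.exp (C * (r₁ : ℝ) ^ 3) := by
      rw [← mul_assoc]; gcongr
    linarith
  have e2 : Real.exp (Cs * (Cw * (r₂ : ℝ) ^ 3)) ≤ Real.exp τ := by
    rw [← mul_assoc]
    exact Real.exp_le_exp.2 ((big3 _ (by positivity) cws).trans sτ)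
  rw [← e3]
  refine HG τ hτ0 S _ _ _ _ _ s hS (by positivity) (Real.exp_pos _).le e3.ge
    (by rw [e3]; exact Real.exp_le_exp.2 (by linarith))
    ((Nat.le_ceil _).trans (by exact_mod_cast (le_max_left _ _).trans hN1))
    (by linarith [big3 Cw (by linarith) cw]) sτ (hκ _ cgp) (big _ 4 cg (by norm_num))
    (le_trans (mul_le_mul (hε _ hr2) (by gcongr) (by positivity) (Real.exp_pos _).le) l7)
    ?_ (fun m hm => ?_) fun c R2 hR => ?_
  · refine S1.trans ?_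
    have h1 : S.ini (En S.L.r2) + (S.b : ℝ) ^ 4 * S.vol ≤ s * S.vol := by
      have := mul_le_mul_of_nonneg_right (big _ 4 ci (by norm_num)) hv
      linarith
    calc _ ≤ Real.exp (Cs * (Cw * (r₁ : ℝ) ^ 3)) * (s * S.vol) := by gcongr
      _ ≤ s / 2 * (s * S.vol) := by gcongr
      _ = τ / 2 * S.vol := by rw [← hss]; ring
      _ ≤ _ := by gcongr; linarith
  · refine (S2 m hm).trans ?_
    have h1 : S.ini (En (S.L.s4 m)) + (S.b : ℝ) ^ 6 / 16 ^ m * S.vol ≤ s / 16 ^ m * S.vol := by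
      have := mul_le_mul_of_nonneg_right (div_le_div_of_nonneg_right (big _ 6 ci le_rfl)
        (by positivity : (0 : ℝ) ≤ 16 ^ m)) hv
      have h2 := I2 m hm
      rw [add_mul, add_div, add_mul, one_mul] at this
      linarith
    have h3 : τ ≤ Real.exp τ := by linarith [Real.add_one_le_exp τ]
    calc _ ≤ Real.exp (Cs * (Cw * (r₁ : ℝ) ^ 3 + Cw * (r₂ : ℝ) ^ 3)) * (s / 16 ^ m * S.vol) := by
          gcongr
      _ ≤ s / 2 * Real.exp τ * (s / 16 ^ m * S.vol) := by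
          rw [mul_add, Real.exp_add]; gcongr
      _ = τ / 2 * Real.exp τ / 16 ^ m * S.vol := by rw [← hss]; ring
      _ ≤ Real.exp τ * Real.exp τ / 16 ^ m * S.vol := by gcongr; linarith
      _ ≤ _ := by rw [← Real.exp_add]; gcongr; linarith
  · refine (S3 c R2 s p hR hp (hκ _ csp) (by simpa using big _ 0 csp (by norm_num))
      (big _ 4 cs (by norm_num)) (by rw [← mul_assoc]; exact big3 _ (by positivity) cwp)).trans ?_
    have h1 := I3 c R2 s p hR (by linarith)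
    have h2 : s + Ci * (S.b : ℝ) ^ 4 ≤ 2 * s := by
      linarith [big Ci 4 (by linarith) (by norm_num)]
    calc _ ≤ Real.exp (Cs * p * (Cw * (r₁ : ℝ) ^ 3)) * (2 * s) ^ p := by
          gcongr
          exact h1.trans (by gcongr)
      _ = (Real.exp (Cs * (Cw * (r₁ : ℝ) ^ 3)) * (2 * s)) ^ p := by
          rw [mul_pow (Real.exp _), ← Real.exp_nat_mul]; ring_nf
      _ ≤ (s / 2 * (2 * s)) ^ p := by gcongr
      _ = _ := by rw [← hss]; ring

theorem qstmt (hW : WorldStmt) (hI : InitStmt) (hS : SwStmt) (hG : GainStmt) (hL : LinkStmt)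
    (hD : LedgerStmt) {h : ℝ} (hh : 0 < h) : Soft.QStmt h := by
  filter_upwards [(Set.toFinite ({4 + h, -(4 + h)} : Set ℝ)).countable.ae_notMem volume]
    with E₀ hE₀ hE
  have hE' : |E₀| < 4 + h := lt_of_le_of_ne hE fun e => hE₀ (by
    rcases eq_or_eq_neg_of_abs_eq e with e | e <;> simp [e])
  obtain ⟨δ, C, hδ, hC, H⟩ := q_bound hW hI hS hG hD hh hE'
  obtain ⟨Cl, hCl, HL⟩ := hL
  have h2 : 0 < Real.log 2 := Real.log_pos one_lt_two
  set B : ℝ := (Cl * C / Real.log 2 ^ 5 * (2 * δ)) ^ (1 / 4 : ℝ) with hB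
  have hB4 : B ^ 4 = Cl * C / Real.log 2 ^ 5 * (2 * δ) := by
    rw [hB, ← Real.rpow_natCast, ← Real.rpow_mul (by positivity)]; norm_num
  refine ⟨E₀ - δ, E₀ + δ, by linarith, by linarith, fun k => B * ((k : ℝ) ^ (5 / 4 : ℝ))⁻¹,
    (Real.summable_nat_rpow_inv.2 (by norm_num)).mul_left B, ?_⟩
  have ht : Tendsto (fun k : ℕ => ((k : ℝ) * Real.log 2) ^ (1 / 32 : ℝ)) atTop atTop :=
    (tendsto_rpow_atTop (by norm_num)).comp (tendsto_natCast_atTop_atTop.atTop_mul_const h2)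
  filter_upwards [ht.eventually H] with k hk n
  obtain ⟨N₁, hk⟩ := hk
  obtain ⟨N₀, HL⟩ := HL n
  have hN : 1 ≤ max 1 (max N₀ N₁) := le_max_left _ _
  obtain ⟨F, hF⟩ := HL _ hN ((le_max_left _ _).trans (le_max_right _ _))
  refine ⟨F, ?_⟩
  have k0 : (0 : ℝ) ≤ k * Real.log 2 := by positivity
  have e32 : (((k : ℝ) * Real.log 2) ^ (1 / 32 : ℝ)) ^ 32 = k * Real.log 2 := by
    rw [← Real.rpow_natCast, ← Real.rpow_mul k0]; norm_num
  have e160 : (((k : ℝ) * Real.log 2) ^ (1 / 32 : ℝ)) ^ 160 = (k * Real.log 2) ^ 5 := by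
    rw [show 160 = 32 * 5 from rfl, pow_mul, e32]
  have eη : Real.exp (-((k : ℝ) * Real.log 2)) = 2⁻¹ ^ k := by
    rw [Real.exp_neg, Real.exp_nat_mul, Real.exp_log two_pos, inv_pow]
  rw [e32, e160, eη] at hk
  refine (setLIntegral_mono' measurableSet_Ioc fun E hE => hF h E _ _ hh (by positivity)
    (hk _ hN ((le_max_right _ _).trans (le_max_right _ _)) E
      (abs_le.2 ⟨by linarith [hE.1], by linarith [hE.2]⟩))).trans (le_of_eq ?_)
  rw [setLIntegral_const, Real.volume_Ioc, ← ENNReal.ofReal_mul (by positivity)]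
  congr 1
  have e5 : ((k : ℝ) ^ (5 / 4 : ℝ)) ^ 4 = (k : ℝ) ^ 5 := by
    rw [← Real.rpow_natCast, ← Real.rpow_mul (Nat.cast_nonneg _)]; norm_num
  rw [mul_pow B, hB4, inv_pow, e5]
  ring

end Crest.Agent.N334.Mn
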