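import Crest.Agent.N334.Main.Sw0
import Crest.Agent.N334.Sw.Main
import Crest.Agent.N334.Sw.LocT
import Crest.Agent.N334.G.Geo2

/-!
# Row 334, S0519 (helper20): `SwStmt`
-/

set_option autoImplicit false

open MeasureTheory Finset

noncomputable section

namespace Crest.Agent.N334.Mn

open G I Sw Ad Su

namespace Sv

theorem wt_tri {P ι : Type} [Fintype ι] (Φ : ι → P → ℝ) (a b c : P) :
    wt Φ a c ≤ 8 * (wt Φ a b + wt Φ b c) := by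
  rw [wt, wt, wt, ← sum_add_distrib, mul_sum]
  exact sum_le_sum fun j _ => by
    nlinarith [sq_nonneg (Φ j a - Φ j b), sq_nonneg (Φ j b - Φ j c),
      sq_nonneg (Φ j a - Φ j b - (Φ j b - Φ j c))]

theorem wt_le_four {P ι : Type} [Fintype ι] {Φ : ι → P → ℝ} (h : ∀ p, ∑ j, Φ j p ^ 2 = 1)
    (a b : P) : wt Φ a b ≤ 4 := by
  have : wt Φ a b ≤ ∑ j, (2 * Φ j a ^ 2 + 2 * Φ j b ^ 2) :=
    sum_le_sum fun j _ => by nlinarith [sq_nonneg (Φ j a + Φ j b)]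
  rw [sum_add_distrib, ← mul_sum, ← mul_sum, h, h] at this
  linarith

theorem s4_tri (L : G.Lat) (m : ℕ) (a b c : L.P) : L.s4 m a c ≤ 8 * (L.s4 m a b + L.s4 m b c) := by
  have := w4_tri (fun i (p : L.P) => L.U (m + 1) i p.1) a b c
  simpa only [w4, Lat.s4, Lat.del, ← pow_mul] using this

theorem ini_nonneg (S : Su) {F : S.L.Mat → ℝ} (h : ∀ K, IsPort K → 0 ≤ F K) : 0 ≤ S.ini F :=
  Sw.Iw_nonneg _ _ S.η0 _ h

/-- both phases, tempered energies -/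
theorem swT {A : ℝ} (hA0 : 0 ≤ A) : ∃ C : ℝ, 1 ≤ C ∧ ∀ (S : Su) (κ ε₁ ε₂ ℓ₁ ℓ₂ : ℝ),
    S.World κ ε₁ ε₂ ℓ₁ ℓ₂ → 0 ≤ ε₁ → (S.a : ℝ) ≤ ℓ₁ → (S.b : ℝ) ≤ ℓ₂ → ε₁ * ℓ₂ ≤ 1 →
    ∀ (ι : Type) [Fintype ι] (Φ : ι → S.L.P → ℝ) (D lam : ℝ) (p : ℕ), 1 ≤ p → 0 < lam →
    (∀ a b, wt Φ a b ≤ D) → C * ((p - 1) * D) ≤ lam → C * ((p - 1) * D) ≤ κ * lam →
    (p - 1) * D * ℓ₂ ≤ 4 * lam → Ak (kx S.L S.D) (wt Φ) ≤ A * lam →
    S.mid (fun K => (lam + En (wt Φ) K) ^ p) ≤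
      Real.exp (C * p * ℓ₁) * S.ini fun K => (lam + En (wt Φ) K) ^ p := by
  obtain ⟨C₀, hC₀, H₀⟩ := switchT0
  obtain ⟨C₁, hC₁, H₁⟩ := switchT1
  obtain ⟨C₂, hC₂, H₂⟩ := tempT
  obtain ⟨B, hB⟩ : ∃ B, B = 5410 + 194 * A := ⟨_, rfl⟩
  have hB1 : 1 ≤ B := by linarith
  have e0 : C₀ ≤ 4 * B * C₀ := by nlinarith
  have e1 : C₁ ≤ (5 * B + A + 1) * C₁ := by nlinarith
  refine ⟨4 * B * C₀ + (5 * B + A + 1) * C₁ + C₂, by linarith,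
    fun S κ ε₁ ε₂ ℓ₁ ℓ₂ hW hε ha hb hεℓ ι _ Φ D lam p hp hl hD h1 h2 h3 hA => ?_⟩
  have h8 := S.eight_le_a
  have h8' := S.eight_le_b
  have hp' : (1 : ℝ) ≤ p := by exact_mod_cast hp
  have hD0 : 0 ≤ D := (wt_nonneg Φ ((0 : Fin 2 → ZMod (2 ^ S.N)), true)
    ((0 : Fin 2 → ZMod (2 ^ S.N)), true)).trans (hD _ _)
  have hpD : 0 ≤ ((p : ℝ) - 1) * D := mul_nonneg (by linarith) hD0
  have hT := H₂ S.L S.E S.η S.η0 ι Φ D lam κ p hp hl hD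
    (le_trans (mul_le_mul_of_nonneg_right (by linarith) hpD) h2)
  obtain ⟨cs, hc1, hc2⟩ := exists_cs (x := B * ℓ₁) (by nlinarith)
  have k0 := H₀ S.L S.h S.lab S.E S.η S.hh S.η0 ι Φ D lam p hp hl hD
    (le_trans (mul_le_mul_of_nonneg_right (by linarith) hpD) h1) S.P₀ S.μ₁ cs
    fun c _ q h0 h1 => sh₀ hW (wt_nonneg Φ) hl hp hT hA0 hA (wt_tri Φ) ha (hB ▸ hc1) c h0 h1
  have k1 := H₁ S.L S.h S.lab S.E S.η S.hh S.η0 ι Φ D lam p hp hl hD hD0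
    (le_trans (mul_le_mul_of_nonneg_right (by linarith) hpD) h1) S.P₁ S.μ₁
    (fun _ => S.a0) (fun _ => S.b0) (fun _ => S.γ₁) (fun _ => ⟨S.b0_pos, S.γ₁_pos.le, S.γ₁_le⟩)
    ε₁ (ε₁ * A) (Real.exp (B * ℓ₂)) hε (by positivity) (Real.one_le_exp (by nlinarith))
    (fun q h0 h1 => bi₁ hW (wt_nonneg Φ) hl hp hT hA hε h0 h1)
    fun q h0 h1 => hB ▸ sh₁ hW (wt_nonneg Φ) hl hp hT hA0 hA (wt_tri Φ) hb h0 h1
  rw [rep₀_eq, ← ini_eq] at k0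
  rw [rep₁_eq, ← mid_eq, Real.log_exp] at k1
  refine k1.trans ((mul_le_mul_of_nonneg_left k0 (Real.exp_pos _).le).trans ?_)
  rw [← mul_assoc, ← Real.exp_add]
  refine mul_le_mul_of_nonneg_right (Real.exp_le_exp.2 ?_) (ini_nonneg S fun K _ => by
    have := En_nonneg (wt_nonneg Φ) K; positivity)
  have g1 : (p - 1) * D / lam * ℓ₂ ≤ 4 := by rwa [div_mul_eq_mul_div, div_le_iff₀ hl]
  have g2 : ε₁ ≤ 1 := by nlinarith
  have g3 : (ε₁ + (p - 1) * D / lam) * (B * ℓ₂) + ε₁ * A + 1 ≤ (5 * B + A + 1) * ℓ₁ := by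
    have : (ε₁ + (p - 1) * D / lam) * (B * ℓ₂) ≤ 5 * B := by nlinarith
    nlinarith
  have g4 := mul_le_mul_of_nonneg_left g3 (show 0 ≤ C₁ * p by positivity)
  have g5 := mul_le_mul_of_nonneg_left hc2 (show 0 ≤ C₀ * p by positivity)
  have g6 : 0 ≤ C₂ * p * ℓ₁ := by have : 0 ≤ ℓ₁ := by linarith
                                  positivity
  nlinarith

/-- both phases, quartic moments -/
theorem swM {A : ℝ} (hA0 : 0 ≤ A) : ∃ C : ℝ, 1 ≤ C ∧ ∀ (S : Su) (κ ε₁ ε₂ ℓ₁ ℓ₂ : ℝ),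
    S.World κ ε₁ ε₂ ℓ₁ ℓ₂ → 0 ≤ κ → (S.a : ℝ) ≤ ℓ₁ → (S.b : ℝ) ≤ ℓ₂ →
    ∀ (m : ℕ) (lam : ℝ), 0 < lam → Ak (kx S.L S.D) (S.L.s4 m) ≤ A * lam →
    S.mid (fun K => lam + En (S.L.s4 m) K) ≤
      Real.exp (C * (ℓ₁ + ℓ₂)) * S.ini fun K => lam + En (S.L.s4 m) K := by
  obtain ⟨C₀, hC₀, H₀⟩ := switchM0
  obtain ⟨C₁, hC₁, H₁⟩ := switchM1
  obtain ⟨B, hB⟩ : ∃ B, B = 5410 + 194 * A := ⟨_, rfl⟩
  have hB1 : 1 ≤ B := by linarith
  refine ⟨4 * B * C₀ + (B + 1) * C₁, by nlinarith,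
    fun S κ ε₁ ε₂ ℓ₁ ℓ₂ hW hκ ha hb m lam hl hA => ?_⟩
  have h8 := S.eight_le_a
  have h8' := S.eight_le_b
  have hT : Temp S.E S.η (fun K : S.L.Mat => (lam + En (S.L.s4 m) K) ^ (1 - 1)) κ := by
    simp only [Nat.sub_self, pow_zero]
    exact ⟨Nice.const _, fun _ _ => zero_le_one, fun _ _ _ => by simpa using hκ⟩
  obtain ⟨cs, hc1, hc2⟩ := exists_cs (x := B * ℓ₁) (by nlinarith)
  have k0 := H₀ S.L S.h S.lab S.E S.η S.hh S.η0 m lam hl S.P₀ S.μ₁ cs fun c _ q h0 h1 => by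
    simpa only [Nat.sub_self, pow_zero, pow_one] using
      sh₀ hW (S.L.s4_nonneg m) hl le_rfl hT hA0 hA (s4_tri _ m) ha (hB ▸ hc1) c h0 h1
  have k1 := H₁ S.L S.h S.lab S.E S.η S.hh S.η0 m lam hl S.P₁ S.μ₁
    (fun _ => S.a0) (fun _ => S.b0) (fun _ => S.γ₁) (fun _ => ⟨S.b0_pos, S.γ₁_pos.le, S.γ₁_le⟩)
    (Real.exp (B * ℓ₂)) (Real.one_le_exp (by nlinarith)) fun q h0 h1 => by
      simpa only [Nat.sub_self, pow_zero, pow_one, hB] using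
        sh₁ hW (S.L.s4_nonneg m) hl le_rfl hT hA0 hA (s4_tri _ m) hb h0 h1
  rw [rep₀_eq, ← ini_eq] at k0
  rw [rep₁_eq, ← mid_eq, Real.log_exp] at k1
  refine k1.trans ((mul_le_mul_of_nonneg_left k0 (Real.exp_pos _).le).trans ?_)
  rw [← mul_assoc, ← Real.exp_add]
  refine mul_le_mul_of_nonneg_right (Real.exp_le_exp.2 ?_) (ini_nonneg S fun K _ => by
    have := En_nonneg (S.L.s4_nonneg m) K; positivity)
  have g4 := mul_le_mul_of_nonneg_left (show B * ℓ₂ + 1 ≤ (B + 1) * ℓ₂ by linarith)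
    (show 0 ≤ C₁ by positivity)
  have g5 := mul_le_mul_of_nonneg_left hc2 (show 0 ≤ C₀ by positivity)
  have g6 : 0 ≤ B * C₀ * ℓ₂ := by have : 0 ≤ ℓ₂ := by linarith
                                  positivity
  have g7 : 0 ≤ (B + 1) * C₁ * ℓ₁ := by have : 0 ≤ ℓ₁ := by linarith
                                        positivity
  nlinarith

theorem I_add (S : Su) {μ : S.L.X → Measure ℂ} (hμ : ∀ x, S.Adm (μ x)) (lam : ℝ)
    (w : S.L.P → S.L.P → ℝ) : S.I μ (fun K => lam + En w K) = lam + S.I μ (En w) := by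
  have := fun x => (hμ x).prob
  rw [Su.I, Iw_add _ _ S.hh S.η0 μ (Nice.const _) (nice_En w), Iw_const _ _ S.hh]
  rfl

theorem unshift (S : Su) {lam r : ℝ} (hl : 0 ≤ lam) {w : S.L.P → S.L.P → ℝ}
    (h : S.mid (fun K => lam + En w K) ≤ r * S.ini fun K => lam + En w K) :
    S.mid (En w) ≤ r * (S.ini (En w) + lam) := by
  rw [mid, ini, I_add S (adm_mu S.adm_unif S.adm_port₀ S.adm_port₂),
    I_add S (adm_mu (S.adm_lawC 0) S.adm_port₁ S.adm_port₂)] at h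
  rw [mid, ini, add_comm]
  linarith

end Sv

open Sv

theorem sw : SwStmt := by
  obtain ⟨A₁, hA₁, K₁⟩ := ak_r2
  obtain ⟨A₂, hA₂, K₂⟩ := ak_s4
  obtain ⟨A₃, hA₃, K₃⟩ := ak_wF
  obtain ⟨C₁, hC₁, H₁⟩ := swT (A := A₁ * 42 ^ 4) (by positivity)
  obtain ⟨C₂, hC₂, H₂⟩ := swM (A := A₂ * 42 ^ 6) (by positivity)
  obtain ⟨C₃, hC₃, H₃⟩ := swT (A := A₃ * 42 ^ 4) (by positivity)
  refine ⟨C₁ + C₂ + 4 * C₃, by linarith, fun S κ ε₁ ε₂ ℓ₁ ℓ₂ hW hκ hε ha hb hεℓ => ?_⟩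
  have h8 := S.eight_le_a
  have h8' := S.eight_le_b
  have hv := S.vol_pos
  refine ⟨?_, fun m hm => ?_, fun c R2 lam p hR hp h1 h2 h3 h4 => ?_⟩
  · have hl : 0 < (S.b : ℝ) ^ 4 * S.vol := by positivity
    have e : wt (S.L.Phi S.L.N) = S.L.r2 := S.L.wt_Phi _
    have := H₁ S κ ε₁ ε₂ ℓ₁ ℓ₂ hW hε ha hb hεℓ _ (S.L.Phi S.L.N) (8 * 4 ^ S.L.N) _ 1 le_rfl hl
      (fun a b => S.L.wt_Phi _ ▸ S.L.rho2_le_pow _ a b) (by simpa using hl.le)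
      (by simpa using mul_nonneg hκ hl.le) (by simpa using hl.le)
      (e ▸ (K₁ S.L S.D one_le_D).trans_eq (by unfold Su.D Su.vol; ring))
    simp only [pow_one, e, Nat.cast_one, mul_one] at this
    refine (unshift S hl.le this).trans (mul_le_mul_of_nonneg_right (Real.exp_le_exp.2 ?_)
      (add_nonneg (ini_nonneg S fun K _ => En_nonneg (S.L.rho2_nonneg _) K) hl.le))
    nlinarith
  · have hl : 0 < (S.b : ℝ) ^ 6 / 16 ^ m * S.vol := by positivity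
    have := H₂ S κ ε₁ ε₂ ℓ₁ ℓ₂ hW hκ ha hb m _ hl
      ((K₂ S.L S.D one_le_D m hm).trans_eq (by unfold Su.D Su.vol; ring))
    refine (unshift S hl.le this).trans (mul_le_mul_of_nonneg_right (Real.exp_le_exp.2 ?_)
      (add_nonneg (ini_nonneg S fun K _ => En_nonneg (S.L.s4_nonneg _) K) hl.le))
    nlinarith
  · obtain ⟨F, hF, e⟩ := exists_stereo S.L c (show 0 < R2 by linarith)
    have hp' : (1 : ℝ) ≤ p := by exact_mod_cast hp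
    have hb4 : 0 < (S.b : ℝ) ^ 4 := by positivity
    have hl4 : (S.b : ℝ) ^ 4 ≤ lam := by nlinarith
    have hl : 0 < lam := by linarith
    have := H₃ S κ ε₁ ε₂ ℓ₁ ℓ₂ hW hε ha hb hεℓ _ F 4 lam p hp hl (wt_le_four hF)
      (by nlinarith) (by nlinarith) (by nlinarith)
      (e ▸ (K₃ S.L S.D one_le_D c R2 hR).trans (by
        rw [Su.D, mul_pow, ← mul_assoc]; gcongr))
    rw [e] at this
    refine this.trans (mul_le_mul_of_nonneg_right (Real.exp_le_exp.2 ?_) (ini_nonneg S fun K _ => by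
      have := En_nonneg (wF_nonneg S.L c (show 0 < R2 by linarith)) K; positivity))
    have : 0 ≤ p * ℓ₁ := by nlinarith
    nlinarith

end Crest.Agent.N334.Mn
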