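import Crest.Agent.N334.Main.Adm
import Crest.Agent.N334.Sw.Sum
import Crest.Agent.N334.Sw.Iw

/-!
# Row 334, S0519 (helper20): the share and bias inputs of the switch in the concrete model
-/

set_option autoImplicit false

open MeasureTheory Finset

noncomputable section

namespace Crest.Agent.N334.Mn

open G I Sw Ad

namespace Sv

theorem num_le {A n x ℓ : ℝ} (hA : 0 ≤ A) (hx : 1 ≤ x) (hℓ : x ≤ ℓ) (hn : n ≤ (13 * x) ^ 2) :
    2 * Real.exp ℓ * (8 * n + 97 * A) ≤ Real.exp ((5410 + 194 * A) * ℓ) := by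
  have h1 : x ^ 2 / 2 ≤ Real.exp ℓ := by
    have := Real.quadratic_le_exp_of_nonneg (show 0 ≤ x by linarith)
    have := Real.exp_le_exp.2 hℓ
    linarith
  have h2 : 1 ≤ Real.exp ℓ := Real.one_le_exp (by linarith)
  have h3 : 5408 + 194 * A ≤ Real.exp ((5408 + 194 * A) * ℓ) := by
    have := Real.add_one_le_exp ((5408 + 194 * A) * ℓ)
    nlinarith
  have h4 : 2 * (8 * n + 97 * A) ≤ (5408 + 194 * A) * Real.exp ℓ := by nlinarith
  rw [show (5410 + 194 * A) * ℓ = ℓ + ((5408 + 194 * A) * ℓ + ℓ) by ring, Real.exp_add,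
    Real.exp_add, mul_comm 2, mul_assoc]
  exact mul_le_mul_of_nonneg_left (h4.trans (by gcongr)) (by positivity)

theorem exists_cs {x : ℝ} (hx : 1 ≤ x) : ∃ cs : ℕ, Real.exp x ≤ 2 ^ cs ∧ (cs : ℝ) + 1 ≤ 4 * x := by
  refine ⟨⌈2 * x⌉₊, ?_, by have := Nat.ceil_lt_add_one (show 0 ≤ 2 * x by linarith); linarith⟩
  have h1 := Nat.le_ceil (2 * x)
  have h2 := Real.log_two_gt_d9
  rw [← Real.exp_log (show (0 : ℝ) < 2 ^ ⌈2 * x⌉₊ by positivity), Real.log_pow]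
  exact Real.exp_le_exp.2 (by nlinarith)

end Sv

namespace Su

variable (S : Su)

open Classical in
/-- plain sites -/
def P₀ : Finset S.L.X := univ.filter fun x => S.g.plain x

open Classical in
/-- centres of class 1 -/
def P₁ : Finset S.L.X := univ.filter fun x => S.g.ctr₁ x

/-- the state between the phases -/
def μ₁ : S.L.X → Measure ℂ := S.mu S.unif (S.port S.γ₁) (S.port S.γ₂)

variable {S}

theorem mem_P₀ {x : S.L.X} : x ∈ S.P₀ ↔ S.g.plain x := by simp [P₀]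
theorem mem_P₁ {x : S.L.X} : x ∈ S.P₁ ↔ S.g.ctr₁ x := by simp [P₁]

theorem adm_μ₁ (x : S.L.X) : S.Adm (S.μ₁ x) := adm_mu S.adm_unif S.adm_port₁ S.adm_port₂ x

instance (x : S.L.X) : IsProbabilityMeasure (S.μ₁ x) := (adm_μ₁ x).prob

theorem ini_eq (F : S.L.Mat → ℝ) :
    S.ini F = Iw S.lab S.E S.η (rep S.P₀ S.μ₁ fun _ => lawC S.h S.η 0) F := by
  refine I_congr (fun x hx => ?_) F
  rcases hx with h | h | h
  · rw [rep, if_pos (mem_P₀.2 h), mu_plain _ _ _ h]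
  · rw [rep, if_neg fun h' => (mem_P₀.1 h').not_ctr₁ h, μ₁, mu_ctr₁ _ _ _ h, mu_ctr₁ _ _ _ h]
  · rw [rep, if_neg fun h' => (mem_P₀.1 h').not_ctr₂ h, μ₁, mu_ctr₂ _ _ _ h, mu_ctr₂ _ _ _ h]

theorem rep₀_eq : (rep S.P₀ S.μ₁ fun _ => lift S.η (dens (ud S.h))) = S.μ₁ := by
  funext x
  unfold rep; split_ifs with h
  exacts [(mu_plain _ _ _ (mem_P₀.1 h)).symm, rfl]

theorem rep₁_eq : (rep S.P₁ S.μ₁ fun _ => lift (S.η + S.γ₁) (law S.a0 S.b0)) = S.μ₁ := by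
  funext x
  unfold rep; split_ifs with h
  exacts [(mu_ctr₁ _ _ _ (mem_P₁.1 h)).symm, rfl]

theorem mid_eq (F : S.L.Mat → ℝ) :
    S.mid F = Iw S.lab S.E S.η (rep S.P₁ S.μ₁ fun _ => lift S.η (law S.a0 S.b0)) F := by
  refine I_congr (fun x hx => ?_) F
  rcases hx with h | h | h
  · rw [rep, if_neg fun h' => h.not_ctr₁ (mem_P₁.1 h'), μ₁, mu_plain _ _ _ h, mu_plain _ _ _ h]
  · rw [rep, if_pos (mem_P₁.2 h), mu_ctr₁ _ _ _ h, port_zero]
  · rw [rep, if_neg fun h' => h.not_ctr₁ (mem_P₁.1 h'), μ₁, mu_ctr₂ _ _ _ h, mu_ctr₂ _ _ _ h]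

theorem D_pos : 0 < S.D := by have := S.eight_le_b; unfold D; linarith

theorem one_le_D : 1 ≤ S.D := by have := S.eight_le_b; unfold D; linarith

theorem card_fib (C : Finset S.L.X) {y : S.L.X → S.L.X} {z : S.L.X} {r : ℕ}
    (H : ∀ o, d1 (M := 2 ^ S.N) o (y o) ≤ r) :
    ((C.filter fun o => y o = z).card : ℝ) ≤ (2 * r + 1) ^ 2 := by
  have : (C.filter fun o => y o = z).card ≤ (ball (M := 2 ^ S.N) z r).card :=
    card_le_card fun x hx => mem_ball.2 ((mem_filter.1 hx).2 ▸ H x)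
  exact_mod_cast this.trans (card_ball_le (M := 2 ^ S.N) z r)

variable {κ ε₁ ε₂ ℓ₁ ℓ₂ : ℝ} (hW : S.World κ ε₁ ε₂ ℓ₁ ℓ₂) {w : S.L.P → S.L.P → ℝ}
  (hw : ∀ a b, 0 ≤ w a b) {lam : ℝ} (hl : 0 < lam) {p : ℕ} (hp : 1 ≤ p)
  (hT : Temp S.E S.η (fun K : S.L.Mat => (lam + En w K) ^ (p - 1)) κ) {A : ℝ} (hA0 : 0 ≤ A)
  (hA : Ak (kx S.L S.D) w ≤ A * lam)

include hW hw hl hp hT hA0 hA

/-- share of the plain sites in phase 0 -/
theorem sh₀ (htri : ∀ a b c, w a c ≤ 8 * (w a b + w b c)) (ha : (S.a : ℝ) ≤ ℓ₁) {cs : ℕ}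
    (hcs : Real.exp ((5410 + 194 * A) * ℓ₁) ≤ 2 ^ cs) (c : ℕ) {q : ℝ} (h0 : 0 ≤ q) (h1 : q ≤ 1) :
    Sh S.lab S.E S.η (st0 S.h S.η S.P₀ S.μ₁ c q) S.P₀ (fun K => (lam + En w K) ^ (p - 1)) w ≤
      2 ^ cs / 2 ^ c * Iw S.lab S.E S.η (st0 S.h S.η S.P₀ S.μ₁ c q) fun K => (lam + En w K) ^ p := by
  have had := adm_st0 adm_μ₁ S.P₀ c h0 h1
  have h8 := S.eight_le_a
  refine (sh_of_LC_psi (y := S.g.c₁) (π := 2 / 2 ^ c * Real.exp ℓ₁) S.hh S.η0
    (fun x => (had x).prob) hw htri hl hp (by positivity) D_pos (by positivity)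
    (fun z => card_fib _ S.g.d1_c₁_le) (fun o _ => (S.sqrt_rx_le _ _).trans ?_)
    fun o ho => hW.lc₁ _ had _ hT o (mem_P₀.1 ho) ?_ _ (by positivity) ?_).trans ?_
  · have : (d1 (M := 2 ^ S.N) o (S.g.c₁ o) : ℝ) ≤ 2 * S.a := by exact_mod_cast S.g.d1_c₁_le o
    have := S.a_le_b
    unfold D; linarith
  · have hc := Geo.ctr₁_c₁ (mem_P₀.1 ho).1
    rw [st0, if_neg fun h' => (mem_P₀.1 h').not_ctr₁ hc]
    exact mu_ctr₁ _ _ _ hc
  · rw [st0, if_pos ho]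
    exact mixC_open S.hh _ c h0 h1
  · refine mul_le_mul_of_nonneg_right ?_
      (Sw.Iw_nonneg _ _ S.η0 _ fun K _ => by have := En_nonneg hw K; positivity)
    have h2 := (Sv.num_le (n := (2 * (2 * S.a : ℕ) + 1) ^ 2) hA0 (by linarith) ha
      (by push_cast; gcongr; linarith)).trans hcs
    have h3 : 97 * Ak (kx S.L S.D) w / lam ≤ 97 * A := by rw [div_le_iff₀ hl]; linarith
    rw [div_mul_eq_mul_div, div_mul_eq_mul_div]
    gcongr
    exact le_trans (by gcongr) h2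

/-- share of the centres of class 1 in phase 1 -/
theorem sh₁ (htri : ∀ a b c, w a c ≤ 8 * (w a b + w b c)) (hb : (S.b : ℝ) ≤ ℓ₂) {q : ℝ}
    (h0 : 0 ≤ q) (h1 : q ≤ 1) :
    Sh S.lab S.E S.η (st1 S.η S.P₁ S.μ₁ (fun _ => S.a0) (fun _ => S.b0) (fun _ => S.γ₁) q) S.P₁
      (fun K => (lam + En w K) ^ (p - 1)) w ≤
      (1 - q) * Real.exp ((5410 + 194 * A) * ℓ₂) * Iw S.lab S.E S.η
        (st1 S.η S.P₁ S.μ₁ (fun _ => S.a0) (fun _ => S.b0) (fun _ => S.γ₁) q)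
        fun K => (lam + En w K) ^ p := by
  have had := adm_st1 adm_μ₁ S.P₁ S.γ₁_pos.le S.γ₁_le h0 h1
  have h8 := S.eight_le_b
  have hq := sub_nonneg.2 h1
  refine (sh_of_LC_psi (y := S.g.c₂) (π := (1 - q) * Real.exp ℓ₂) S.hh S.η0
    (fun x => (had x).prob) hw htri hl hp (by positivity) D_pos (by positivity)
    (fun z => card_fib _ S.g.d1_c₂_le) (fun o _ => (S.sqrt_rx_le _ _).trans ?_)
    fun o ho => hW.lc₂ _ had _ hT o (mem_P₁.1 ho) ?_ _ hq ?_).trans ?_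
  · have : (d1 (M := 2 ^ S.N) o (S.g.c₂ o) : ℝ) ≤ 6 * S.b := by exact_mod_cast S.g.d1_c₂_le o
    unfold D; linarith
  · have hc := Geo.ctr₂_c₂ (g := S.g) o
    rw [st1, if_neg fun h' => hc.not_ctr₁ (mem_P₁.1 h')]
    exact mu_ctr₂ _ _ _ hc
  · have := law_prob S.a0 S.b0_pos
    rw [st1, if_pos ho]
    exact mix_closed_open _ _ _ _
  · refine mul_le_mul_of_nonneg_right ?_
      (Sw.Iw_nonneg _ _ S.η0 _ fun K _ => by have := En_nonneg hw K; positivity)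
    have h2 := Sv.num_le (n := (2 * (6 * S.b : ℕ) + 1) ^ 2) hA0 (by linarith) hb
      (by push_cast; gcongr; linarith)
    have h3 : 97 * Ak (kx S.L S.D) w / lam ≤ 97 * A := by rw [div_le_iff₀ hl]; linarith
    rw [mul_assoc]
    gcongr
    refine le_trans ?_ h2
    exact mul_le_mul (by linarith [Real.exp_pos ℓ₂]) (add_le_add le_rfl h3)
      (by have := Sm.Ak_nonneg (fun x y => (Ker.kx_pos S.L S.D x y).le) hw; positivity)
      (by positivity)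

omit hA0 in
/-- bias of the centres of class 1 in phase 1 -/
theorem bi₁ (hε : 0 ≤ ε₁) {q : ℝ} (h0 : 0 ≤ q) (h1 : q < 1) :
    Bi S.lab S.E S.η (st1 S.η S.P₁ S.μ₁ (fun _ => S.a0) (fun _ => S.b0) (fun _ => S.γ₁) q) S.P₁
      (fun _ => S.a0) (fun _ => S.b0) (fun _ => S.γ₁) (fun K => (lam + En w K) ^ (p - 1)) w ≤
      (ε₁ / (1 - q) + ε₁ * A) * Iw S.lab S.E S.η
        (st1 S.η S.P₁ S.μ₁ (fun _ => S.a0) (fun _ => S.b0) (fun _ => S.γ₁) q)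
        fun K => (lam + En w K) ^ p := by
  have had := adm_st1 adm_μ₁ S.P₁ S.γ₁_pos.le S.γ₁_le h0 h1.le
  have hpr := fun x => (had x).prob
  have hq := sub_pos.2 h1
  have := law_prob S.a0 S.b0_pos
  refine (bi_of_BP_psi (ρ := (1 - q)⁻¹) S.hh S.η0 hpr hw hl hp (fun _ _ => S.b0_pos) hε hε
    (by positivity) (fun x y => (Ker.kx_pos _ _ x y).le) (fun y hy F hF hF0 => ?_)
    fun y hy => hW.bp₁ _ had _ hT y (mem_P₁.1 hy) _ S.γ₁_pos.le le_rfl).trans ?_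
  · rw [le_inv_mul_iff₀ hq]
    exact Iw_open_le _ _ S.hh S.η0 _ h0 h1.le (if_pos hy) hF hF0
  · refine mul_le_mul_of_nonneg_right ?_
      (Sw.Iw_nonneg _ _ S.η0 _ fun K _ => by have := En_nonneg hw K; positivity)
    rw [div_eq_mul_inv ε₁, mul_div_assoc]
    gcongr
    rwa [div_le_iff₀ hl]

end Su

end Crest.Agent.N334.Mn
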