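import Crest.Agent.N334.Br.W2
import Crest.Agent.N334.Md.Par

/-!
# Row 334, S0519 (helper86): `WorldStmt`
-/

set_option autoImplicit false

namespace Crest.Agent.N334.Mn

theorem world : WorldStmt := Br.world_of fun h E₀ hh hE => by
  obtain ⟨δ, c, hδ, c1, H⟩ := Md.exists_par hh hE
  refine ⟨δ, c, hδ, c1, fun E r₁ r₂ h1 h2 h3 => ?_⟩
  obtain ⟨p₁, p₂, D, A, k, e1, e2, L₁, L₂, e3, e4, e5, e6, -, e7, e8, e9⟩ := H E r₁ r₂ h1 h2 h3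
  have key : ∀ p, p = p₁ ∨ p = p₂ → Br.Num p c := fun p hp =>
    ⟨(e9 p hp).1, (e9 p hp).2.1, (e9 p hp).2.2.2.1, (e9 p hp).2.2.2.2⟩
  exact ⟨p₁, p₂, D, A, k, e1, e2, L₁, L₂, e3, e4, e5, e6, e7, e8, key _ (Or.inl rfl),
    key _ (Or.inr rfl)⟩

end Crest.Agent.N334.Mn
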